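import Claimed.Agent.R316.Pack007

/-!
# Row 316: algebra of `CMfd.Smooth` and `CMfd.SmoothST`

Written by helper55.  Closure of smooth functions on the manifold (and on `I × M`) under the usual
operations.  No hypotheses on the manifold are needed: everything is chartwise `ContDiffOn`.
-/

set_option autoImplicit false
open scoped ContDiff ComplexOrder

namespace Claimed.Agent.R316

variable {V : Type} [NormedAddCommGroup V] [NormedSpace ℝ V]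
variable {ι : Type} [Fintype ι]
variable {𝓜 : CMfd V ι}

namespace CMfd

section space

variable {u v : V → ℝ}

theorem smooth_const (c : ℝ) : 𝓜.Smooth (fun _ => c) := fun _ _ _ => contDiffOn_const

theorem Smooth.add (hu : 𝓜.Smooth u) (hv : 𝓜.Smooth v) : 𝓜.Smooth (fun x => u x + v x) :=
  fun Φ U h => (hu Φ U h).add (hv Φ U h)

theorem Smooth.sub (hu : 𝓜.Smooth u) (hv : 𝓜.Smooth v) : 𝓜.Smooth (fun x => u x - v x) :=
  fun Φ U h => (hu Φ U h).sub (hv Φ U h)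

theorem Smooth.neg (hu : 𝓜.Smooth u) : 𝓜.Smooth (fun x => - u x) :=
  fun Φ U h => (hu Φ U h).neg

theorem Smooth.mul (hu : 𝓜.Smooth u) (hv : 𝓜.Smooth v) : 𝓜.Smooth (fun x => u x * v x) :=
  fun Φ U h => (hu Φ U h).mul (hv Φ U h)

theorem Smooth.const_mul (c : ℝ) (hu : 𝓜.Smooth u) : 𝓜.Smooth (fun x => c * u x) :=
  (smooth_const c).mul hu

theorem Smooth.mul_const (hu : 𝓜.Smooth u) (c : ℝ) : 𝓜.Smooth (fun x => u x * c) :=
  hu.mul (smooth_const c)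

theorem Smooth.add_const (hu : 𝓜.Smooth u) (c : ℝ) : 𝓜.Smooth (fun x => u x + c) :=
  hu.add (smooth_const c)

theorem Smooth.const_add (c : ℝ) (hu : 𝓜.Smooth u) : 𝓜.Smooth (fun x => c + u x) :=
  (smooth_const c).add hu

theorem Smooth.sub_const (hu : 𝓜.Smooth u) (c : ℝ) : 𝓜.Smooth (fun x => u x - c) :=
  hu.sub (smooth_const c)

theorem Smooth.const_sub (c : ℝ) (hu : 𝓜.Smooth u) : 𝓜.Smooth (fun x => c - u x) :=
  (smooth_const c).sub hu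

theorem Smooth.pow (hu : 𝓜.Smooth u) (m : ℕ) : 𝓜.Smooth (fun x => u x ^ m) :=
  fun Φ U h => (hu Φ U h).pow m

theorem Smooth.sum {α : Type} (s : Finset α) {F : α → V → ℝ} (hF : ∀ a ∈ s, 𝓜.Smooth (F a)) :
    𝓜.Smooth (fun x => ∑ a ∈ s, F a x) :=
  fun Φ U h => ContDiffOn.sum fun a ha => hF a ha Φ U h

theorem Smooth.prod {α : Type} (s : Finset α) {F : α → V → ℝ} (hF : ∀ a ∈ s, 𝓜.Smooth (F a)) :
    𝓜.Smooth (fun x => ∏ a ∈ s, F a x) :=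
  fun Φ U h => contDiffOn_prod fun a ha => hF a ha Φ U h

/-- outer smooth function. -/
theorem Smooth.comp {χ : ℝ → ℝ} (hχ : ContDiff ℝ ∞ χ) (hu : 𝓜.Smooth u) :
    𝓜.Smooth (fun x => χ (u x)) :=
  fun Φ U h => hχ.comp_contDiffOn (hu Φ U h)

/-- outer function smooth on a set containing the values on the carrier. -/
theorem Smooth.comp_of_mem {χ : ℝ → ℝ} {s : Set ℝ} (hχ : ContDiffOn ℝ ∞ χ s) (hu : 𝓜.Smooth u)
    (hmem : ∀ x ∈ 𝓜.carrier, u x ∈ s) : 𝓜.Smooth (fun x => χ (u x)) :=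
  fun Φ U h => hχ.comp (hu Φ U h) fun z hz => hmem _ (by
    obtain ⟨W, _, hW⟩ := (𝓜.isParam h).image
    exact (hW ▸ (⟨z, hz, rfl⟩ : Φ z ∈ Φ '' U) : Φ z ∈ 𝓜.carrier ∩ W).1)

/-- outer smooth function of two variables. -/
theorem Smooth.comp₂ {χ : ℝ × ℝ → ℝ} (hχ : ContDiff ℝ ∞ χ) (hu : 𝓜.Smooth u) (hv : 𝓜.Smooth v) :
    𝓜.Smooth (fun x => χ (u x, v x)) :=
  fun Φ U h => hχ.comp_contDiffOn ((hu Φ U h).prodMk (hv Φ U h))

theorem Smooth.exp (hu : 𝓜.Smooth u) : 𝓜.Smooth (fun x => Real.exp (u x)) :=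
  hu.comp Real.contDiff_exp

theorem Smooth.log (hu : 𝓜.Smooth u) (h0 : ∀ x ∈ 𝓜.carrier, u x ≠ 0) :
    𝓜.Smooth (fun x => Real.log (u x)) :=
  hu.comp_of_mem (s := {0}ᶜ) (fun y hy => (Real.contDiffAt_log.2 hy).contDiffWithinAt) h0

theorem Smooth.inv (hu : 𝓜.Smooth u) (h0 : ∀ x ∈ 𝓜.carrier, u x ≠ 0) :
    𝓜.Smooth (fun x => (u x)⁻¹) :=
  hu.comp_of_mem (s := {0}ᶜ) (fun y hy => (contDiffAt_inv ℝ hy).contDiffWithinAt) h0

theorem Smooth.div (hu : 𝓜.Smooth u) (hv : 𝓜.Smooth v) (h0 : ∀ x ∈ 𝓜.carrier, v x ≠ 0) :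
    𝓜.Smooth (fun x => u x / v x) := by
  simpa only [div_eq_mul_inv] using hu.mul (hv.inv h0)

theorem Smooth.div_const (hu : 𝓜.Smooth u) (c : ℝ) : 𝓜.Smooth (fun x => u x / c) := by
  simpa only [div_eq_mul_inv] using hu.mul_const c⁻¹

theorem Smooth.sqrt (hu : 𝓜.Smooth u) (h0 : ∀ x ∈ 𝓜.carrier, u x ≠ 0) :
    𝓜.Smooth (fun x => Real.sqrt (u x)) :=
  hu.comp_of_mem (s := {0}ᶜ) (fun y hy => (Real.contDiffAt_sqrt hy).contDiffWithinAt) h0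

theorem Smooth.rpow_const (hu : 𝓜.Smooth u) (p : ℝ) (h0 : ∀ x ∈ 𝓜.carrier, u x ≠ 0) :
    𝓜.Smooth (fun x => u x ^ p) :=
  hu.comp_of_mem (s := {0}ᶜ)
    (fun y hy => (Real.contDiffAt_rpow_const_of_ne hy).contDiffWithinAt) h0

end space

section spacetime

variable {I : Set ℝ} {u v : ℝ → V → ℝ}

theorem smoothST_const (c : ℝ) : 𝓜.SmoothST I (fun _ _ => c) := fun _ _ _ => contDiffOn_const

/-- a function of time only. -/
theorem smoothST_of_time {a : ℝ → ℝ} (ha : ContDiffOn ℝ ∞ a I) : 𝓜.SmoothST I (fun t _ => a t) :=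
  fun _ _ _ => ha.comp contDiff_fst.contDiffOn fun _ hq => hq.1

theorem smoothST_time : 𝓜.SmoothST I (fun t _ => t) := smoothST_of_time contDiffOn_id

/-- a function of space only. -/
theorem Smooth.toST {w : V → ℝ} (hw : 𝓜.Smooth w) : 𝓜.SmoothST I (fun _ => w) :=
  fun Φ U h => (hw Φ U h).comp contDiff_snd.contDiffOn fun _ hq => hq.2

theorem SmoothST.mono {J : Set ℝ} (hu : 𝓜.SmoothST I u) (hJ : J ⊆ I) : 𝓜.SmoothST J u :=
  fun Φ U h => (hu Φ U h).mono (Set.prod_mono hJ subset_rfl)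

theorem SmoothST.add (hu : 𝓜.SmoothST I u) (hv : 𝓜.SmoothST I v) :
    𝓜.SmoothST I (fun t x => u t x + v t x) :=
  fun Φ U h => (hu Φ U h).add (hv Φ U h)

theorem SmoothST.sub (hu : 𝓜.SmoothST I u) (hv : 𝓜.SmoothST I v) :
    𝓜.SmoothST I (fun t x => u t x - v t x) :=
  fun Φ U h => (hu Φ U h).sub (hv Φ U h)

theorem SmoothST.neg (hu : 𝓜.SmoothST I u) : 𝓜.SmoothST I (fun t x => - u t x) :=
  fun Φ U h => (hu Φ U h).neg

theorem SmoothST.mul (hu : 𝓜.SmoothST I u) (hv : 𝓜.SmoothST I v) :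
    𝓜.SmoothST I (fun t x => u t x * v t x) :=
  fun Φ U h => (hu Φ U h).mul (hv Φ U h)

theorem SmoothST.const_mul (c : ℝ) (hu : 𝓜.SmoothST I u) : 𝓜.SmoothST I (fun t x => c * u t x) :=
  (smoothST_const c).mul hu

theorem SmoothST.mul_const (hu : 𝓜.SmoothST I u) (c : ℝ) : 𝓜.SmoothST I (fun t x => u t x * c) :=
  hu.mul (smoothST_const c)

theorem SmoothST.add_const (hu : 𝓜.SmoothST I u) (c : ℝ) : 𝓜.SmoothST I (fun t x => u t x + c) :=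
  hu.add (smoothST_const c)

theorem SmoothST.sub_const (hu : 𝓜.SmoothST I u) (c : ℝ) : 𝓜.SmoothST I (fun t x => u t x - c) :=
  hu.sub (smoothST_const c)

theorem SmoothST.pow (hu : 𝓜.SmoothST I u) (m : ℕ) : 𝓜.SmoothST I (fun t x => u t x ^ m) :=
  fun Φ U h => (hu Φ U h).pow m

theorem SmoothST.sum {α : Type} (s : Finset α) {F : α → ℝ → V → ℝ}
    (hF : ∀ a ∈ s, 𝓜.SmoothST I (F a)) : 𝓜.SmoothST I (fun t x => ∑ a ∈ s, F a t x) :=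
  fun Φ U h => ContDiffOn.sum fun a ha => hF a ha Φ U h

theorem SmoothST.comp {χ : ℝ → ℝ} (hχ : ContDiff ℝ ∞ χ) (hu : 𝓜.SmoothST I u) :
    𝓜.SmoothST I (fun t x => χ (u t x)) :=
  fun Φ U h => hχ.comp_contDiffOn (hu Φ U h)

theorem SmoothST.comp_of_mem {χ : ℝ → ℝ} {s : Set ℝ} (hχ : ContDiffOn ℝ ∞ χ s)
    (hu : 𝓜.SmoothST I u) (hmem : ∀ t ∈ I, ∀ x ∈ 𝓜.carrier, u t x ∈ s) :
    𝓜.SmoothST I (fun t x => χ (u t x)) :=
  fun Φ U h => hχ.comp (hu Φ U h) fun q hq => hmem _ hq.1 _ (by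
    obtain ⟨W, _, hW⟩ := (𝓜.isParam h).image
    exact (hW ▸ (⟨q.2, hq.2, rfl⟩ : Φ q.2 ∈ Φ '' U) : Φ q.2 ∈ 𝓜.carrier ∩ W).1)

theorem SmoothST.comp₂ {χ : ℝ × ℝ → ℝ} (hχ : ContDiff ℝ ∞ χ) (hu : 𝓜.SmoothST I u)
    (hv : 𝓜.SmoothST I v) : 𝓜.SmoothST I (fun t x => χ (u t x, v t x)) :=
  fun Φ U h => hχ.comp_contDiffOn ((hu Φ U h).prodMk (hv Φ U h))

theorem SmoothST.exp (hu : 𝓜.SmoothST I u) : 𝓜.SmoothST I (fun t x => Real.exp (u t x)) :=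
  hu.comp Real.contDiff_exp

theorem SmoothST.log (hu : 𝓜.SmoothST I u) (h0 : ∀ t ∈ I, ∀ x ∈ 𝓜.carrier, u t x ≠ 0) :
    𝓜.SmoothST I (fun t x => Real.log (u t x)) :=
  hu.comp_of_mem (s := {0}ᶜ) (fun y hy => (Real.contDiffAt_log.2 hy).contDiffWithinAt) h0

theorem SmoothST.inv (hu : 𝓜.SmoothST I u) (h0 : ∀ t ∈ I, ∀ x ∈ 𝓜.carrier, u t x ≠ 0) :
    𝓜.SmoothST I (fun t x => (u t x)⁻¹) :=
  hu.comp_of_mem (s := {0}ᶜ) (fun y hy => (contDiffAt_inv ℝ hy).contDiffWithinAt) h0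

theorem SmoothST.div (hu : 𝓜.SmoothST I u) (hv : 𝓜.SmoothST I v)
    (h0 : ∀ t ∈ I, ∀ x ∈ 𝓜.carrier, v t x ≠ 0) : 𝓜.SmoothST I (fun t x => u t x / v t x) := by
  simpa only [div_eq_mul_inv] using hu.mul (hv.inv h0)

theorem SmoothST.rpow_const (hu : 𝓜.SmoothST I u) (p : ℝ)
    (h0 : ∀ t ∈ I, ∀ x ∈ 𝓜.carrier, u t x ≠ 0) : 𝓜.SmoothST I (fun t x => u t x ^ p) :=
  hu.comp_of_mem (s := {0}ᶜ)
    (fun y hy => (Real.contDiffAt_rpow_const_of_ne hy).contDiffWithinAt) h0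

/-- reparametrisation of time. -/
theorem SmoothST.comp_time {J : Set ℝ} {a : ℝ → ℝ} (hu : 𝓜.SmoothST I u)
    (ha : ContDiffOn ℝ ∞ a J) (hmaps : Set.MapsTo a J I) : 𝓜.SmoothST J (fun t x => u (a t) x) :=
  fun Φ U h => (hu Φ U h).comp
    ((ha.comp contDiff_fst.contDiffOn fun _ hq => hq.1).prodMk contDiff_snd.contDiffOn)
    fun _ hq => ⟨hmaps hq.1, hq.2⟩

end spacetime

end CMfd

end Claimed.Agent.R316
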