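import Claimed.Agent.R316.Pack005
import Claimed.Agent.R316.Pack015

/-!
# Row 316, CM-2 (part 4): space-time families of forms, time derivatives, `flowMetric`

Owner: helper141.  TIME FIRST everywhere.  `SmoothFam` is defined in `Base/Vol/Defs.lean`.

* Part 0: `IsTimeDom I` (an interval with nonempty interior: `Icc a b`, `Ici a`, `Ioo a b`, ...).
* Part 1 (one chart): a function `F` which is `C^∞` on `I ×ˢ U` (`U` open in `ℂ^ι`, one sided derivatives at the end points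
  of `I`): slices, joint smoothness of the spatial derivatives `dz`, `dzb`, `grad10`, `levi` of the slices and of the
  time derivative, INTERCHANGE of `d/dt` with the spatial derivatives.
  Route: `fderiv ℝ (fun y => F (t,y)) z v = fderivWithin ℝ F (I ×ˢ U) (t,z) (0,v)`, `ContDiffOn.fderivWithin`,
  symmetry of the second derivative `ContDiffWithinAt.isSymmSndFDerivWithinAt` (needs `(t,z) ∈ closure (interior (I ×ˢ U))`).
* Part 2: `IsHFormST`, `IsMetricST`, closure properties, `SmoothST` of `tr`, `lap`, `gradSq`, `detRatio`, `scalCurv`.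
* Part 3: time derivatives: `IsTimeDeriv`, `d/dt dd u = dd u_t`, `d/dt log det = tr (h⁻¹ h_t)`, `d/dt tr_h A`.
* Part 4: `flowMetric`.
-/

set_option autoImplicit false
set_option linter.unusedSectionVars false
open scoped ContDiff ComplexOrder ComplexConjugate Topology Matrix

namespace Claimed.Agent.R316

/-! ## Part 0: time domains -/

section timedom

/-- admissible time domain: an interval with nonempty interior. -/
def IsTimeDom (I : Set ℝ) : Prop := Convex ℝ I ∧ (interior I).Nonempty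

variable {I : Set ℝ} {a b t : ℝ}

theorem isTimeDom_Icc (h : a < b) : IsTimeDom (Set.Icc a b) :=
  ⟨convex_Icc a b, by rw [interior_Icc]; exact Set.nonempty_Ioo.2 h⟩

theorem isTimeDom_Ico (h : a < b) : IsTimeDom (Set.Ico a b) :=
  ⟨convex_Ico a b, by rw [interior_Ico]; exact Set.nonempty_Ioo.2 h⟩

theorem isTimeDom_Ioc (h : a < b) : IsTimeDom (Set.Ioc a b) :=
  ⟨convex_Ioc a b, by rw [interior_Ioc]; exact Set.nonempty_Ioo.2 h⟩

theorem isTimeDom_Ioo (h : a < b) : IsTimeDom (Set.Ioo a b) :=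
  ⟨convex_Ioo a b, by rw [interior_Ioo]; exact Set.nonempty_Ioo.2 h⟩

theorem isTimeDom_Ici (a : ℝ) : IsTimeDom (Set.Ici a) :=
  ⟨convex_Ici a, by rw [interior_Ici]; exact Set.nonempty_Ioi⟩

theorem isTimeDom_Ioi (a : ℝ) : IsTimeDom (Set.Ioi a) :=
  ⟨convex_Ioi a, by rw [interior_Ioi]; exact Set.nonempty_Ioi⟩

theorem isTimeDom_Iic (a : ℝ) : IsTimeDom (Set.Iic a) :=
  ⟨convex_Iic a, by rw [interior_Iic]; exact Set.nonempty_Iio⟩

theorem isTimeDom_Iio (a : ℝ) : IsTimeDom (Set.Iio a) :=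
  ⟨convex_Iio a, by rw [interior_Iio]; exact Set.nonempty_Iio⟩

theorem isTimeDom_univ : IsTimeDom Set.univ :=
  ⟨convex_univ, by rw [interior_univ]; exact Set.univ_nonempty⟩

theorem IsTimeDom.uniqueDiffOn (hI : IsTimeDom I) : UniqueDiffOn ℝ I :=
  uniqueDiffOn_convex hI.1 hI.2

theorem IsTimeDom.uniqueDiffWithinAt (hI : IsTimeDom I) (ht : t ∈ I) : UniqueDiffWithinAt ℝ I t :=
  hI.uniqueDiffOn t ht

theorem IsTimeDom.subset_closure_interior (hI : IsTimeDom I) : I ⊆ closure (interior I) := by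
  rw [hI.1.closure_interior_eq_closure_of_nonempty_interior hI.2]
  exact subset_closure

theorem IsTimeDom.uniqueDiffOn_prod {E : Type} [NormedAddCommGroup E] [NormedSpace ℝ E]
    (hI : IsTimeDom I) {U : Set E} (hU : IsOpen U) : UniqueDiffOn ℝ (I ×ˢ U) :=
  hI.uniqueDiffOn.prod hU.uniqueDiffOn

theorem IsTimeDom.prod_subset_closure_interior {E : Type} [NormedAddCommGroup E] [NormedSpace ℝ E]
    (hI : IsTimeDom I) {U : Set E} (hU : IsOpen U) : I ×ˢ U ⊆ closure (interior (I ×ˢ U)) := by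
  rw [interior_prod_eq, closure_prod_eq, hU.interior_eq]
  exact Set.prod_mono hI.subset_closure_interior subset_closure

end timedom

/-! ## Part 1: one chart -/

section chart

variable {E E' : Type} [NormedAddCommGroup E] [NormedSpace ℝ E]
  [NormedAddCommGroup E'] [NormedSpace ℝ E']
variable {I : Set ℝ} {U : Set E} {F Ft : ℝ × E → E'} {t : ℝ} {z : E}

theorem contDiffOn_slice_space (hF : ContDiffOn ℝ ∞ F (I ×ˢ U)) (ht : t ∈ I) :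
    ContDiffOn ℝ ∞ (fun y => F (t, y)) U :=
  hF.comp (contDiff_const.prodMk contDiff_id).contDiffOn (fun _ hy => ⟨ht, hy⟩)

theorem contDiffOn_slice_time (hF : ContDiffOn ℝ ∞ F (I ×ˢ U)) (hz : z ∈ U) :
    ContDiffOn ℝ ∞ (fun s => F (s, z)) I :=
  hF.comp (contDiff_id.prodMk contDiff_const).contDiffOn (fun _ hs => ⟨hs, hz⟩)

theorem st_differentiableWithinAt (hF : ContDiffOn ℝ ∞ F (I ×ˢ U)) (ht : t ∈ I) (hz : z ∈ U) :
    DifferentiableWithinAt ℝ F (I ×ˢ U) (t, z) :=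
  (hF (t, z) ⟨ht, hz⟩).differentiableWithinAt (by simp)

theorem fderiv_slice_eq (hI : IsTimeDom I) (hU : IsOpen U) (hF : ContDiffOn ℝ ∞ F (I ×ˢ U))
    (ht : t ∈ I) (hz : z ∈ U) (v : E) :
    fderiv ℝ (fun y => F (t, y)) z v = fderivWithin ℝ F (I ×ˢ U) (t, z) (0, v) := by
  have h1 := (st_differentiableWithinAt hF ht hz).hasFDerivWithinAt
  have h2 : HasFDerivWithinAt (fun y : E => ((t, y) : ℝ × E)) (ContinuousLinearMap.inr ℝ ℝ E) U z :=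
    (hasFDerivAt_prodMk_right t z).hasFDerivWithinAt
  have h3 := h1.comp z h2 (fun y hy => (⟨ht, hy⟩ : (t, y) ∈ I ×ˢ U))
  have h4 := (h3.hasFDerivAt (hU.mem_nhds hz)).fderiv
  have h5 : (fun y => F (t, y)) = F ∘ (fun y : E => ((t, y) : ℝ × E)) := rfl
  rw [h5, h4]
  simp

theorem hasDerivWithinAt_slice_fderivWithin (hF : ContDiffOn ℝ ∞ F (I ×ˢ U))
    (ht : t ∈ I) (hz : z ∈ U) :
    HasDerivWithinAt (fun s => F (s, z)) (fderivWithin ℝ F (I ×ˢ U) (t, z) (1, 0)) I t := by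
  have h1 := (st_differentiableWithinAt hF ht hz).hasFDerivWithinAt
  have h2 : HasDerivWithinAt (fun s : ℝ => ((s, z) : ℝ × E)) ((1, 0) : ℝ × E) I t :=
    ((hasDerivAt_id t).prodMk (hasDerivAt_const t z)).hasDerivWithinAt
  exact h1.comp_hasDerivWithinAt t h2 (fun s hs => (⟨hs, hz⟩ : (s, z) ∈ I ×ˢ U))

theorem derivWithin_slice_eq (hI : IsTimeDom I) (hU : IsOpen U) (hF : ContDiffOn ℝ ∞ F (I ×ˢ U))
    (ht : t ∈ I) (hz : z ∈ U) :
    derivWithin (fun s => F (s, z)) I t = fderivWithin ℝ F (I ×ˢ U) (t, z) (1, 0) :=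
  (hasDerivWithinAt_slice_fderivWithin hF ht hz).derivWithin (hI.uniqueDiffWithinAt ht)

theorem hasDerivWithinAt_slice (hF : ContDiffOn ℝ ∞ F (I ×ˢ U)) (ht : t ∈ I) (hz : z ∈ U) :
    HasDerivWithinAt (fun s => F (s, z)) (derivWithin (fun s => F (s, z)) I t) I t :=
  (hasDerivWithinAt_slice_fderivWithin hF ht hz).differentiableWithinAt.hasDerivWithinAt

theorem st_contDiffOn_fderivWithin_apply (hI : IsTimeDom I) (hU : IsOpen U)
    (hF : ContDiffOn ℝ ∞ F (I ×ˢ U)) (w : ℝ × E) :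
    ContDiffOn ℝ ∞ (fun q : ℝ × E => fderivWithin ℝ F (I ×ˢ U) q w) (I ×ˢ U) :=
  (hF.fderivWithin (hI.uniqueDiffOn_prod hU) (m := ∞) (by simp)).clm_apply contDiffOn_const

/-- spatial directional derivatives of the slices are jointly smooth. -/
theorem contDiffOn_fderiv_slice (hI : IsTimeDom I) (hU : IsOpen U)
    (hF : ContDiffOn ℝ ∞ F (I ×ˢ U)) (v : E) :
    ContDiffOn ℝ ∞ (fun q : ℝ × E => fderiv ℝ (fun y => F (q.1, y)) q.2 v) (I ×ˢ U) :=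
  (st_contDiffOn_fderivWithin_apply hI hU hF (0, v)).congr
    (fun q hq => fderiv_slice_eq hI hU hF hq.1 hq.2 v)

/-- the time derivative is jointly smooth. -/
theorem contDiffOn_derivWithin_slice (hI : IsTimeDom I) (hU : IsOpen U)
    (hF : ContDiffOn ℝ ∞ F (I ×ˢ U)) :
    ContDiffOn ℝ ∞ (fun q : ℝ × E => derivWithin (fun s => F (s, q.2)) I q.1) (I ×ˢ U) :=
  (st_contDiffOn_fderivWithin_apply hI hU hF (1, 0)).congr
    (fun q hq => derivWithin_slice_eq hI hU hF hq.1 hq.2)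

theorem st_eq_fderivWithin (hI : IsTimeDom I) (hF : ContDiffOn ℝ ∞ F (I ×ˢ U))
    (hFt : ∀ t ∈ I, ∀ y ∈ U, HasDerivWithinAt (fun s => F (s, y)) (Ft (t, y)) I t)
    (q : ℝ × E) (hq : q ∈ I ×ˢ U) : Ft q = fderivWithin ℝ F (I ×ˢ U) q (1, 0) :=
  (hI.uniqueDiffWithinAt hq.1).eq_deriv _ (hFt q.1 hq.1 q.2 hq.2)
    (hasDerivWithinAt_slice_fderivWithin hF hq.1 hq.2)

theorem contDiffOn_of_hasDerivWithinAt_slice (hI : IsTimeDom I) (hU : IsOpen U)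
    (hF : ContDiffOn ℝ ∞ F (I ×ˢ U))
    (hFt : ∀ t ∈ I, ∀ y ∈ U, HasDerivWithinAt (fun s => F (s, y)) (Ft (t, y)) I t) :
    ContDiffOn ℝ ∞ Ft (I ×ˢ U) :=
  (st_contDiffOn_fderivWithin_apply hI hU hF (1, 0)).congr (st_eq_fderivWithin hI hF hFt)

/-- INTERCHANGE of the time derivative and a spatial directional derivative. -/
theorem hasDerivWithinAt_fderiv_slice (hI : IsTimeDom I) (hU : IsOpen U)
    (hF : ContDiffOn ℝ ∞ F (I ×ˢ U))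
    (hFt : ∀ t ∈ I, ∀ y ∈ U, HasDerivWithinAt (fun s => F (s, y)) (Ft (t, y)) I t)
    (ht : t ∈ I) (hz : z ∈ U) (v : E) :
    HasDerivWithinAt (fun s => fderiv ℝ (fun y => F (s, y)) z v)
      (fderiv ℝ (fun y => Ft (t, y)) z v) I t := by
  have hS := hI.uniqueDiffOn_prod hU
  have hq : (t, z) ∈ I ×ˢ U := ⟨ht, hz⟩
  have hG := st_contDiffOn_fderivWithin_apply hI hU hF ((0, v) : ℝ × E)
  have hFt' := contDiffOn_of_hasDerivWithinAt_slice hI hU hF hFt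
  have hD : DifferentiableWithinAt ℝ (fderivWithin ℝ F (I ×ˢ U)) (I ×ˢ U) (t, z) :=
    ((hF.fderivWithin hS (m := ∞) (by simp)) (t, z) hq).differentiableWithinAt (by simp)
  have key : ∀ w : ℝ × E, fderivWithin ℝ (fun q : ℝ × E => fderivWithin ℝ F (I ×ˢ U) q w) (I ×ˢ U) (t, z)
      = (fderivWithin ℝ (fderivWithin ℝ F (I ×ˢ U)) (I ×ˢ U) (t, z)).flip w := by
    intro w
    have := (hD.hasFDerivWithinAt.clm_apply (hasFDerivWithinAt_const w (t, z) (I ×ˢ U))).fderivWithin (hS _ hq)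
    rw [this, ContinuousLinearMap.comp_zero, zero_add]
  have h1 := hasDerivWithinAt_slice_fderivWithin hG ht hz
  have hsymm := ((hF (t, z) hq).isSymmSndFDerivWithinAt
    (by rw [minSmoothness_of_isRCLikeNormedField]; exact WithTop.coe_le_coe.2 le_top) hS
    (hI.prod_subset_closure_interior hU hq) hq)
  have h2 : fderiv ℝ (fun y => Ft (t, y)) z v
      = fderivWithin ℝ (fun q : ℝ × E => fderivWithin ℝ F (I ×ˢ U) q (0, v)) (I ×ˢ U) (t, z) (1, 0) := by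
    rw [fderiv_slice_eq hI hU hFt' ht hz v,
      fderivWithin_congr (st_eq_fderivWithin hI hF hFt) (st_eq_fderivWithin hI hF hFt _ hq),
      key, key]
    simp only [ContinuousLinearMap.flip_apply]
    exact hsymm.eq _ _
  rw [h2]
  exact h1.congr (fun s hs => fderiv_slice_eq hI hU hF hs hz v) (fderiv_slice_eq hI hU hF ht hz v)

end chart

section chartW

variable {ι : Type} [Fintype ι] [DecidableEq ι]
variable {I : Set ℝ} {U : Set (CE ι)} {t : ℝ} {z : CE ι}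

theorem contDiffOn_dz_slice {F : ℝ × CE ι → ℂ} (hI : IsTimeDom I) (hU : IsOpen U)
    (hF : ContDiffOn ℝ ∞ F (I ×ˢ U)) (l : ι) :
    ContDiffOn ℝ ∞ (fun q : ℝ × CE ι => dz l (fun y => F (q.1, y)) q.2) (I ×ˢ U) := by
  unfold dz
  exact contDiffOn_const.mul ((contDiffOn_fderiv_slice hI hU hF _).sub
    (contDiffOn_const.mul (contDiffOn_fderiv_slice hI hU hF _)))

theorem contDiffOn_dzb_slice {F : ℝ × CE ι → ℂ} (hI : IsTimeDom I) (hU : IsOpen U)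
    (hF : ContDiffOn ℝ ∞ F (I ×ˢ U)) (l : ι) :
    ContDiffOn ℝ ∞ (fun q : ℝ × CE ι => dzb l (fun y => F (q.1, y)) q.2) (I ×ˢ U) := by
  unfold dzb
  exact contDiffOn_const.mul ((contDiffOn_fderiv_slice hI hU hF _).add
    (contDiffOn_const.mul (contDiffOn_fderiv_slice hI hU hF _)))

theorem st_contDiffOn_ofReal {F : ℝ × CE ι → ℝ} (hF : ContDiffOn ℝ ∞ F (I ×ˢ U)) :
    ContDiffOn ℝ ∞ (fun q : ℝ × CE ι => ((F q : ℝ) : ℂ)) (I ×ˢ U) :=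
  Complex.ofRealCLM.contDiff.comp_contDiffOn hF

theorem contDiffOn_grad10_slice {F : ℝ × CE ι → ℝ} (hI : IsTimeDom I) (hU : IsOpen U)
    (hF : ContDiffOn ℝ ∞ F (I ×ˢ U)) (k : ι) :
    ContDiffOn ℝ ∞ (fun q : ℝ × CE ι => grad10 (fun y => F (q.1, y)) q.2 k) (I ×ˢ U) :=
  contDiffOn_dz_slice hI hU (st_contDiffOn_ofReal hF) k

theorem contDiffOn_levi_slice {F : ℝ × CE ι → ℝ} (hI : IsTimeDom I) (hU : IsOpen U)
    (hF : ContDiffOn ℝ ∞ F (I ×ˢ U)) (j k : ι) :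
    ContDiffOn ℝ ∞ (fun q : ℝ × CE ι => levi (fun y => F (q.1, y)) q.2 j k) (I ×ˢ U) :=
  contDiffOn_dzb_slice hI hU (contDiffOn_dz_slice hI hU (st_contDiffOn_ofReal hF) k) j

theorem hasDerivWithinAt_dz_slice {F Ft : ℝ × CE ι → ℂ} (hI : IsTimeDom I) (hU : IsOpen U)
    (hF : ContDiffOn ℝ ∞ F (I ×ˢ U))
    (hFt : ∀ t ∈ I, ∀ y ∈ U, HasDerivWithinAt (fun s => F (s, y)) (Ft (t, y)) I t)
    (ht : t ∈ I) (hz : z ∈ U) (l : ι) :
    HasDerivWithinAt (fun s => dz l (fun y => F (s, y)) z) (dz l (fun y => Ft (t, y)) z) I t := by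
  unfold dz
  exact ((hasDerivWithinAt_fderiv_slice hI hU hF hFt ht hz _).sub
    ((hasDerivWithinAt_fderiv_slice hI hU hF hFt ht hz _).const_mul _)).const_mul _

theorem hasDerivWithinAt_dzb_slice {F Ft : ℝ × CE ι → ℂ} (hI : IsTimeDom I) (hU : IsOpen U)
    (hF : ContDiffOn ℝ ∞ F (I ×ˢ U))
    (hFt : ∀ t ∈ I, ∀ y ∈ U, HasDerivWithinAt (fun s => F (s, y)) (Ft (t, y)) I t)
    (ht : t ∈ I) (hz : z ∈ U) (l : ι) :
    HasDerivWithinAt (fun s => dzb l (fun y => F (s, y)) z) (dzb l (fun y => Ft (t, y)) z) I t := by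
  unfold dzb
  exact ((hasDerivWithinAt_fderiv_slice hI hU hF hFt ht hz _).add
    ((hasDerivWithinAt_fderiv_slice hI hU hF hFt ht hz _).const_mul _)).const_mul _

theorem st_hasDerivWithinAt_ofReal {F Ft : ℝ × CE ι → ℝ}
    (hFt : ∀ t ∈ I, ∀ y ∈ U, HasDerivWithinAt (fun s => F (s, y)) (Ft (t, y)) I t) :
    ∀ t ∈ I, ∀ y ∈ U, HasDerivWithinAt (fun s => ((F (s, y) : ℝ) : ℂ)) ((Ft (t, y) : ℝ) : ℂ) I t :=
  fun t ht y hy => (hFt t ht y hy).ofReal_comp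

theorem hasDerivWithinAt_grad10_slice {F Ft : ℝ × CE ι → ℝ} (hI : IsTimeDom I) (hU : IsOpen U)
    (hF : ContDiffOn ℝ ∞ F (I ×ˢ U))
    (hFt : ∀ t ∈ I, ∀ y ∈ U, HasDerivWithinAt (fun s => F (s, y)) (Ft (t, y)) I t)
    (ht : t ∈ I) (hz : z ∈ U) (k : ι) :
    HasDerivWithinAt (fun s => grad10 (fun y => F (s, y)) z k)
      (grad10 (fun y => Ft (t, y)) z k) I t :=
  hasDerivWithinAt_dz_slice (F := fun q => ((F q : ℝ) : ℂ)) (Ft := fun q => ((Ft q : ℝ) : ℂ))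
    hI hU (st_contDiffOn_ofReal hF) (st_hasDerivWithinAt_ofReal hFt) ht hz k

theorem hasDerivWithinAt_levi_slice {F Ft : ℝ × CE ι → ℝ} (hI : IsTimeDom I) (hU : IsOpen U)
    (hF : ContDiffOn ℝ ∞ F (I ×ˢ U))
    (hFt : ∀ t ∈ I, ∀ y ∈ U, HasDerivWithinAt (fun s => F (s, y)) (Ft (t, y)) I t)
    (ht : t ∈ I) (hz : z ∈ U) (j k : ι) :
    HasDerivWithinAt (fun s => levi (fun y => F (s, y)) z j k)
      (levi (fun y => Ft (t, y)) z j k) I t :=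
  hasDerivWithinAt_dzb_slice
    (F := fun q : ℝ × CE ι => dz k (fun y => ((F (q.1, y) : ℝ) : ℂ)) q.2)
    (Ft := fun q : ℝ × CE ι => dz k (fun y => ((Ft (q.1, y) : ℝ) : ℂ)) q.2)
    hI hU (contDiffOn_dz_slice hI hU (st_contDiffOn_ofReal hF) k)
    (fun t ht y hy => hasDerivWithinAt_dz_slice (F := fun q => ((F q : ℝ) : ℂ))
      (Ft := fun q => ((Ft q : ℝ) : ℂ)) hI hU (st_contDiffOn_ofReal hF)
      (st_hasDerivWithinAt_ofReal hFt) ht hy k) ht hz j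

end chartW

/-! ## Part 2: families of forms -/

section families

variable {V : Type} [NormedAddCommGroup V] [NormedSpace ℝ V]
variable {ι : Type} [Fintype ι] [DecidableEq ι]
variable {𝓜 : CMfd V ι} {I J : Set ℝ} {A B h g : ℝ → HFam V ι} {u v f : ℝ → V → ℝ}
variable {Φ : CE ι → V} {U : Set (CE ι)} {z : CE ι} {t : ℝ} {x : V}

/-- smooth family of Hermitian forms on `I × M`. -/
structure IsHFormST (𝓜 : CMfd V ι) (I : Set ℝ) (A : ℝ → HFam V ι) : Prop where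
  form : ∀ t ∈ I, IsHForm 𝓜 (A t)
  smooth : SmoothFam 𝓜 I A

/-- smooth family of Hermitian metrics on `I × M`. -/
structure IsMetricST (𝓜 : CMfd V ι) (I : Set ℝ) (h : ℝ → HFam V ι) : Prop where
  metric : ∀ t ∈ I, IsMetric 𝓜 (h t)
  smooth : SmoothFam 𝓜 I h

theorem IsMetricST.isHFormST (hh : IsMetricST 𝓜 I h) : IsHFormST 𝓜 I h :=
  ⟨fun t ht => (hh.metric t ht).toIsHForm, hh.smooth⟩

theorem st_mapsTo_snd {E : Type} (I : Set ℝ) (U : Set E) :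
    Set.MapsTo (fun q : ℝ × E => q.2) (I ×ˢ U) U := fun _ hq => hq.2

theorem st_mapsTo_fst {E : Type} (I : Set ℝ) (U : Set E) :
    Set.MapsTo (fun q : ℝ × E => q.1) (I ×ˢ U) I := fun _ hq => hq.1

theorem st_contDiffOn_comp_snd {E E' : Type} [NormedAddCommGroup E] [NormedSpace ℝ E]
    [NormedAddCommGroup E'] [NormedSpace ℝ E'] {f : E → E'} {U : Set E}
    (hf : ContDiffOn ℝ ∞ f U) (I : Set ℝ) :
    ContDiffOn ℝ ∞ (fun q : ℝ × E => f q.2) (I ×ˢ U) :=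
  hf.comp contDiff_snd.contDiffOn (st_mapsTo_snd I U)

theorem st_contDiffOn_comp_fst {E E' : Type} [NormedAddCommGroup E] [NormedSpace ℝ E]
    [NormedAddCommGroup E'] [NormedSpace ℝ E'] {a : ℝ → E'} {I : Set ℝ}
    (ha : ContDiffOn ℝ ∞ a I) (U : Set E) :
    ContDiffOn ℝ ∞ (fun q : ℝ × E => a q.1) (I ×ˢ U) :=
  ha.comp contDiff_fst.contDiffOn (st_mapsTo_fst I U)

theorem st_contDiffOn_conj {E : Type} [NormedAddCommGroup E] [NormedSpace ℝ E] {f : E → ℂ}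
    {s : Set E} (hf : ContDiffOn ℝ ∞ f s) : ContDiffOn ℝ ∞ (fun q => conj (f q)) s :=
  Complex.conjCLE.contDiff.comp_contDiffOn hf

theorem IsHFormST.mono (hA : IsHFormST 𝓜 I A) (hJ : J ⊆ I) : IsHFormST 𝓜 J A := by
  exact ⟨fun t ht => hA.form t (hJ ht), fun Φ U hΦ j k =>
    (hA.smooth Φ U hΦ j k).mono (Set.prod_mono hJ subset_rfl)⟩

theorem IsMetricST.mono (hh : IsMetricST 𝓜 I h) (hJ : J ⊆ I) : IsMetricST 𝓜 J h := by
  exact ⟨fun t ht => hh.metric t (hJ ht), fun Φ U hΦ j k =>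
    (hh.smooth Φ U hΦ j k).mono (Set.prod_mono hJ subset_rfl)⟩

theorem isHFormST_const {A : HFam V ι} (hA : IsHForm 𝓜 A) (I : Set ℝ) :
    IsHFormST 𝓜 I (fun _ => A) := by
  exact ⟨fun _ _ => hA, fun Φ U hΦ j k => st_contDiffOn_comp_snd (hA.smooth hΦ j k) I⟩

theorem isMetricST_const {h : HFam V ι} (hh : IsMetric 𝓜 h) (I : Set ℝ) :
    IsMetricST 𝓜 I (fun _ => h) := by
  exact ⟨fun _ _ => hh, fun Φ U hΦ j k => st_contDiffOn_comp_snd (hh.smooth hΦ j k) I⟩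

theorem IsHFormST.add (hA : IsHFormST 𝓜 I A) (hB : IsHFormST 𝓜 I B) :
    IsHFormST 𝓜 I (fun t Φ z => A t Φ z + B t Φ z) := by
  exact ⟨fun t ht => (hA.form t ht).add (hB.form t ht), fun Φ U hΦ j k =>
    (hA.smooth Φ U hΦ j k).add (hB.smooth Φ U hΦ j k)⟩

theorem IsHFormST.sub (hA : IsHFormST 𝓜 I A) (hB : IsHFormST 𝓜 I B) :
    IsHFormST 𝓜 I (fun t Φ z => A t Φ z - B t Φ z) := by
  exact ⟨fun t ht => (hA.form t ht).sub (hB.form t ht), fun Φ U hΦ j k =>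
    (hA.smooth Φ U hΦ j k).sub (hB.smooth Φ U hΦ j k)⟩

theorem IsHFormST.neg (hA : IsHFormST 𝓜 I A) : IsHFormST 𝓜 I (fun t Φ z => - A t Φ z) := by
  exact ⟨fun t ht => (hA.form t ht).neg, fun Φ U hΦ j k => (hA.smooth Φ U hΦ j k).neg⟩

theorem IsHFormST.smul_real (c : ℝ) (hA : IsHFormST 𝓜 I A) :
    IsHFormST 𝓜 I (fun t Φ z => ((c : ℝ) : ℂ) • A t Φ z) := by
  exact ⟨fun t ht => (hA.form t ht).smul_real c, fun Φ U hΦ j k =>
    contDiffOn_const.mul (hA.smooth Φ U hΦ j k)⟩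

/-- multiplication by a function of time. -/
theorem IsHFormST.smul_time {a : ℝ → ℝ} (ha : ContDiffOn ℝ ∞ a I) (hA : IsHFormST 𝓜 I A) :
    IsHFormST 𝓜 I (fun t Φ z => ((a t : ℝ) : ℂ) • A t Φ z) := by
  exact ⟨fun t ht => (hA.form t ht).smul_real (a t), fun Φ U hΦ j k =>
    (Complex.ofRealCLM.contDiff.comp_contDiffOn (st_contDiffOn_comp_fst ha U)).mul
      (hA.smooth Φ U hΦ j k)⟩

theorem IsHFormST.smulF (hf : 𝓜.SmoothST I f) (hA : IsHFormST 𝓜 I A) :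
    IsHFormST 𝓜 I (fun t => smulF (f t) (A t)) := by
  exact ⟨fun t ht => (hA.form t ht).smulF (hf.smooth ht), fun Φ U hΦ j k =>
    (Complex.ofRealCLM.contDiff.comp_contDiffOn (hf Φ U hΦ)).mul (hA.smooth Φ U hΦ j k)⟩

theorem IsMetricST.smulF (hf : 𝓜.SmoothST I f) (hpos : ∀ t ∈ I, ∀ x ∈ 𝓜.carrier, 0 < f t x)
    (hh : IsMetricST 𝓜 I h) : IsMetricST 𝓜 I (fun t => smulF (f t) (h t)) := by
  exact ⟨fun t ht => (hh.metric t ht).smulF (hf.smooth ht) (hpos t ht),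
    (hh.isHFormST.smulF hf).smooth⟩

theorem isHFormST_ddc (hI : IsTimeDom I) (hu : 𝓜.SmoothST I u) :
    IsHFormST 𝓜 I (fun t => ddc (u t)) := by
  exact ⟨fun t ht => isHForm_ddc (hu.smooth ht), fun Φ U hΦ j k =>
    contDiffOn_levi_slice hI (CMfd.isOpen_dom hΦ) (hu Φ U hΦ) j k⟩

theorem isHFormST_gradF (hI : IsTimeDom I) (hu : 𝓜.SmoothST I u) :
    IsHFormST 𝓜 I (fun t => gradF (u t)) := by
  exact ⟨fun t ht => isHForm_gradF (hu.smooth ht), fun Φ U hΦ j k =>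
    (st_contDiffOn_conj (contDiffOn_grad10_slice hI (CMfd.isOpen_dom hΦ) (hu Φ U hΦ) j)).mul
      (contDiffOn_grad10_slice hI (CMfd.isOpen_dom hΦ) (hu Φ U hΦ) k)⟩

theorem isHFormST_crossF (hI : IsTimeDom I) (hu : 𝓜.SmoothST I u) (hv : 𝓜.SmoothST I v) :
    IsHFormST 𝓜 I (fun t => crossF (u t) (v t)) := by
  exact ⟨fun t ht => isHForm_crossF (hu.smooth ht) (hv.smooth ht), fun Φ U hΦ j k =>
    ((st_contDiffOn_conj (contDiffOn_grad10_slice hI (CMfd.isOpen_dom hΦ) (hu Φ U hΦ) j)).mul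
      (contDiffOn_grad10_slice hI (CMfd.isOpen_dom hΦ) (hv Φ U hΦ) k)).add
    ((st_contDiffOn_conj (contDiffOn_grad10_slice hI (CMfd.isOpen_dom hΦ) (hv Φ U hΦ) j)).mul
      (contDiffOn_grad10_slice hI (CMfd.isOpen_dom hΦ) (hu Φ U hΦ) k))⟩

theorem isHFormST_ricF (hI : IsTimeDom I) (hh : IsMetricST 𝓜 I h) :
    IsHFormST 𝓜 I (fun t => ricF (h t)) := by
  exact ⟨fun t ht => isHForm_ricF (hh.metric t ht), fun Φ U hΦ j k =>
    (contDiffOn_levi_slice (F := fun q : ℝ × CE ι => Real.log (h q.1 Φ q.2).det.re) hI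
      (CMfd.isOpen_dom hΦ) (contDiffOn_logDet_of_posDef (fun a b => hh.smooth Φ U hΦ a b)
        (fun q hq => (hh.metric q.1 hq.1).posDef hΦ q.2 hq.2)) j k).neg⟩

/-! ### the scalars -/

theorem smoothST_tr (hh : IsMetricST 𝓜 I h) (hA : IsHFormST 𝓜 I A) :
    𝓜.SmoothST I (fun t => tr 𝓜 (h t) (A t)) := by
  intro Φ U hΦ
  exact (contDiffOn_trace_inv_mul_re (H := fun q : ℝ × CE ι => h q.1 Φ q.2)
    (A := fun q : ℝ × CE ι => A q.1 Φ q.2) (fun a b => hh.smooth Φ U hΦ a b)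
    (fun q hq => (hh.metric q.1 hq.1).det_ne_zero hΦ hq.2) (fun a b => hA.smooth Φ U hΦ a b)).congr
    (fun q hq => tr_eq (hh.metric q.1 hq.1) (hA.form q.1 hq.1) hΦ hq.2)

theorem smoothST_lap (hI : IsTimeDom I) (hh : IsMetricST 𝓜 I h) (hu : 𝓜.SmoothST I u) :
    𝓜.SmoothST I (fun t => lap 𝓜 (h t) (u t)) := by
  exact smoothST_tr hh (isHFormST_ddc hI hu)

theorem smoothST_gradSq (hI : IsTimeDom I) (hh : IsMetricST 𝓜 I h) (hu : 𝓜.SmoothST I u) :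
    𝓜.SmoothST I (fun t => gradSq 𝓜 (h t) (u t)) := by
  intro Φ U hΦ
  exact (contDiffOn_qf (H := fun q : ℝ × CE ι => ((h q.1 Φ q.2)⁻¹)ᵀ)
    (v := fun q : ℝ × CE ι => grad10 (u q.1 ∘ Φ) q.2)
    (fun a b => contDiffOn_matInv (H := fun q : ℝ × CE ι => h q.1 Φ q.2)
      (fun a b => hh.smooth Φ U hΦ a b) (fun q hq => (hh.metric q.1 hq.1).det_ne_zero hΦ hq.2) b a)
    (fun a => contDiffOn_grad10_slice hI (CMfd.isOpen_dom hΦ) (hu Φ U hΦ) a)).congr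
    (fun q hq => gradSq_eq (hh.metric q.1 hq.1) (u q.1) hΦ hq.2)

theorem smoothST_gradInner (hI : IsTimeDom I) (hh : IsMetricST 𝓜 I h) (hu : 𝓜.SmoothST I u)
    (hv : 𝓜.SmoothST I v) : 𝓜.SmoothST I (fun t => gradInner 𝓜 (h t) (u t) (v t)) := by
  intro Φ U hΦ
  exact (contDiffOn_dualIP (H := fun q : ℝ × CE ι => h q.1 Φ q.2)
    (X := fun q : ℝ × CE ι => grad10 (u q.1 ∘ Φ) q.2)
    (Y := fun q : ℝ × CE ι => grad10 (v q.1 ∘ Φ) q.2)
    (fun a b => hh.smooth Φ U hΦ a b) (fun q hq => (hh.metric q.1 hq.1).det_ne_zero hΦ hq.2)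
    (fun a => contDiffOn_grad10_slice hI (CMfd.isOpen_dom hΦ) (hu Φ U hΦ) a)
    (fun a => contDiffOn_grad10_slice hI (CMfd.isOpen_dom hΦ) (hv Φ U hΦ) a)).congr
    (fun q hq => gradInner_eq (hh.metric q.1 hq.1) (u q.1) (v q.1) hΦ hq.2)

theorem smoothST_detRatio (hh : IsHFormST 𝓜 I h) (hg : IsMetricST 𝓜 I g) :
    𝓜.SmoothST I (fun t => detRatio 𝓜 (h t) (g t)) := by
  intro Φ U hΦ
  exact (contDiffOn_det_div_re (H := fun q : ℝ × CE ι => h q.1 Φ q.2)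
    (G := fun q : ℝ × CE ι => g q.1 Φ q.2) (fun a b => hh.smooth Φ U hΦ a b)
    (fun a b => hg.smooth Φ U hΦ a b)
    (fun q hq => (hg.metric q.1 hq.1).det_ne_zero hΦ hq.2)).congr
    (fun q hq => detRatio_eq (hh.form q.1 hq.1) (hg.metric q.1 hq.1) hΦ hq.2)

theorem smoothST_log_detRatio (hh : IsMetricST 𝓜 I h) (hg : IsMetricST 𝓜 I g) :
    𝓜.SmoothST I (fun t x => Real.log (detRatio 𝓜 (h t) (g t) x)) := by
  exact (smoothST_detRatio hh.isHFormST hg).log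
    (fun t ht x hx => (detRatio_pos (hh.metric t ht) (hg.metric t ht) hx).ne')

theorem smoothST_scalCurv (hI : IsTimeDom I) (hh : IsMetricST 𝓜 I h) :
    𝓜.SmoothST I (fun t => scalCurv 𝓜 (h t)) := by
  exact smoothST_tr hh (isHFormST_ricF hI hh)

end families

/-! ## Part 3: time derivatives -/

section timederiv

variable {V : Type} [NormedAddCommGroup V] [NormedSpace ℝ V]
variable {ι : Type} [Fintype ι] [DecidableEq ι]
variable {𝓜 : CMfd V ι} {I : Set ℝ} {A A' B B' h h' : ℝ → HFam V ι} {u ut v vt : ℝ → V → ℝ}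
variable {Φ : CE ι → V} {U : Set (CE ι)} {z : CE ι} {t : ℝ} {x : V}

theorem CMfd.SmoothST.hasDerivWithinAt (hu : 𝓜.SmoothST I u) (ht : t ∈ I) (hx : x ∈ 𝓜.carrier) :
    HasDerivWithinAt (fun s => u s x) (derivWithin (fun s => u s x) I t) I t := by
  have h1 := hasDerivWithinAt_slice (hu _ _ (CMfd.isHol_pΦ 𝓜 hx)) ht (CMfd.co_mem 𝓜 hx)
  simpa only [CMfd.pΦ_co 𝓜 hx] using h1

theorem CMfd.SmoothST.derivWithin (hI : IsTimeDom I) (hu : 𝓜.SmoothST I u) :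
    𝓜.SmoothST I (fun t x => derivWithin (fun s => u s x) I t) := by
  intro Φ U hΦ
  exact contDiffOn_derivWithin_slice hI (CMfd.isOpen_dom hΦ) (hu Φ U hΦ)

/-- any time derivative of a space-time smooth function is space-time smooth. -/
theorem CMfd.SmoothST.of_hasDerivWithinAt (hI : IsTimeDom I) (hu : 𝓜.SmoothST I u)
    (hut : ∀ t ∈ I, ∀ x ∈ 𝓜.carrier, HasDerivWithinAt (fun s => u s x) (ut t x) I t) :
    𝓜.SmoothST I ut := by
  intro Φ U hΦ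
  exact contDiffOn_of_hasDerivWithinAt_slice (Ft := fun q : ℝ × CE ι => ut q.1 (Φ q.2)) hI
    (CMfd.isOpen_dom hΦ) (hu Φ U hΦ) (fun t ht y hy => hut t ht (Φ y) (CMfd.mem_carrier hΦ hy))

/-- `A'` is the (entrywise, chartwise) time derivative of the family `A`. -/
def IsTimeDeriv (𝓜 : CMfd V ι) (I : Set ℝ) (A A' : ℝ → HFam V ι) : Prop :=
  ∀ (Φ : CE ι → V) (U : Set (CE ι)), 𝓜.IsHol Φ U → ∀ z ∈ U, ∀ t ∈ I, ∀ j k,
    HasDerivWithinAt (fun s => A s Φ z j k) (A' t Φ z j k) I t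

/-- INTERCHANGE: `d/dt dd u = dd u_t`. -/
theorem hasDerivWithinAt_ddc (hI : IsTimeDom I) (hu : 𝓜.SmoothST I u)
    (hut : ∀ t ∈ I, ∀ x ∈ 𝓜.carrier, HasDerivWithinAt (fun s => u s x) (ut t x) I t)
    (hΦ : 𝓜.IsHol Φ U) (hz : z ∈ U) (ht : t ∈ I) (j k : ι) :
    HasDerivWithinAt (fun s => ddc (u s) Φ z j k) (ddc (ut t) Φ z j k) I t := by
  exact hasDerivWithinAt_levi_slice (F := fun q : ℝ × CE ι => u q.1 (Φ q.2))
    (Ft := fun q : ℝ × CE ι => ut q.1 (Φ q.2)) hI (CMfd.isOpen_dom hΦ) (hu Φ U hΦ)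
    (fun t ht y hy => hut t ht (Φ y) (CMfd.mem_carrier hΦ hy)) ht hz j k

theorem isTimeDeriv_ddc (hI : IsTimeDom I) (hu : 𝓜.SmoothST I u)
    (hut : ∀ t ∈ I, ∀ x ∈ 𝓜.carrier, HasDerivWithinAt (fun s => u s x) (ut t x) I t) :
    IsTimeDeriv 𝓜 I (fun t => ddc (u t)) (fun t => ddc (ut t)) := by
  exact fun Φ U hΦ z hz t ht j k => hasDerivWithinAt_ddc hI hu hut hΦ hz ht j k

theorem hasDerivWithinAt_grad10 (hI : IsTimeDom I) (hu : 𝓜.SmoothST I u)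
    (hut : ∀ t ∈ I, ∀ x ∈ 𝓜.carrier, HasDerivWithinAt (fun s => u s x) (ut t x) I t)
    (hΦ : 𝓜.IsHol Φ U) (hz : z ∈ U) (ht : t ∈ I) (k : ι) :
    HasDerivWithinAt (fun s => grad10 (u s ∘ Φ) z k) (grad10 (ut t ∘ Φ) z k) I t := by
  exact hasDerivWithinAt_grad10_slice (F := fun q : ℝ × CE ι => u q.1 (Φ q.2))
    (Ft := fun q : ℝ × CE ι => ut q.1 (Φ q.2)) hI (CMfd.isOpen_dom hΦ) (hu Φ U hΦ)
    (fun t ht y hy => hut t ht (Φ y) (CMfd.mem_carrier hΦ hy)) ht hz k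

theorem isTimeDeriv_const (𝓜 : CMfd V ι) (I : Set ℝ) (A : HFam V ι) :
    IsTimeDeriv 𝓜 I (fun _ => A) (fun _ _ _ => 0) := by
  exact fun Φ U hΦ z hz t ht j k => hasDerivWithinAt_const _ _ _

theorem IsTimeDeriv.add (hA : IsTimeDeriv 𝓜 I A A') (hB : IsTimeDeriv 𝓜 I B B') :
    IsTimeDeriv 𝓜 I (fun t Φ z => A t Φ z + B t Φ z) (fun t Φ z => A' t Φ z + B' t Φ z) := by
  exact fun Φ U hΦ z hz t ht j k => (hA Φ U hΦ z hz t ht j k).add (hB Φ U hΦ z hz t ht j k)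

theorem IsTimeDeriv.sub (hA : IsTimeDeriv 𝓜 I A A') (hB : IsTimeDeriv 𝓜 I B B') :
    IsTimeDeriv 𝓜 I (fun t Φ z => A t Φ z - B t Φ z) (fun t Φ z => A' t Φ z - B' t Φ z) := by
  exact fun Φ U hΦ z hz t ht j k => (hA Φ U hΦ z hz t ht j k).sub (hB Φ U hΦ z hz t ht j k)

theorem IsTimeDeriv.neg (hA : IsTimeDeriv 𝓜 I A A') :
    IsTimeDeriv 𝓜 I (fun t Φ z => - A t Φ z) (fun t Φ z => - A' t Φ z) := by
  exact fun Φ U hΦ z hz t ht j k => (hA Φ U hΦ z hz t ht j k).neg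

theorem IsTimeDeriv.smul_real (c : ℝ) (hA : IsTimeDeriv 𝓜 I A A') :
    IsTimeDeriv 𝓜 I (fun t Φ z => ((c : ℝ) : ℂ) • A t Φ z)
      (fun t Φ z => ((c : ℝ) : ℂ) • A' t Φ z) := by
  exact fun Φ U hΦ z hz t ht j k => (hA Φ U hΦ z hz t ht j k).const_mul _

/-- Leibniz rule for a scalar function of time. -/
theorem IsTimeDeriv.smul_time {a a' : ℝ → ℝ} (ha : ∀ t ∈ I, HasDerivWithinAt a (a' t) I t)
    (hA : IsTimeDeriv 𝓜 I A A') :
    IsTimeDeriv 𝓜 I (fun t Φ z => ((a t : ℝ) : ℂ) • A t Φ z)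
      (fun t Φ z => ((a' t : ℝ) : ℂ) • A t Φ z + ((a t : ℝ) : ℂ) • A' t Φ z) := by
  exact fun Φ U hΦ z hz t ht j k => ((ha t ht).ofReal_comp).mul (hA Φ U hΦ z hz t ht j k)

/-- Leibniz rule for a space-time scalar. -/
theorem IsTimeDeriv.smulF
    (hut : ∀ t ∈ I, ∀ x ∈ 𝓜.carrier, HasDerivWithinAt (fun s => u s x) (ut t x) I t)
    (hA : IsTimeDeriv 𝓜 I A A') :
    IsTimeDeriv 𝓜 I (fun t => smulF (u t) (A t))
      (fun t Φ z => smulF (ut t) (A t) Φ z + smulF (u t) (A' t) Φ z) := by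
  exact fun Φ U hΦ z hz t ht j k =>
    ((hut t ht (Φ z) (CMfd.mem_carrier hΦ hz)).ofReal_comp).mul (hA Φ U hΦ z hz t ht j k)

theorem st_hasDerivWithinAt_conj_mul (T : Matrix ι ι ℂ) {M : ℝ → Matrix ι ι ℂ} {M' : Matrix ι ι ℂ}
    {s : Set ℝ} {t : ℝ} (hM : ∀ j k, HasDerivWithinAt (fun r => M r j k) (M' j k) s t) (j k : ι) :
    HasDerivWithinAt (fun r => (Tᴴ * M r * T) j k) ((Tᴴ * M' * T) j k) s t := by
  have h1 := hasDerivWithinAt_matMul (A := fun _ : ℝ => Tᴴ) (A' := 0) (B := M) (B' := M') (s := s)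
    (t := t) (fun j k => hasDerivWithinAt_const _ _ _) hM
  simp only [Matrix.zero_mul, zero_add] at h1
  have h2 := hasDerivWithinAt_matMul (A := fun r : ℝ => Tᴴ * M r) (A' := Tᴴ * M')
    (B := fun _ : ℝ => T) (B' := 0) (s := s) (t := t) h1 (fun j k => hasDerivWithinAt_const _ _ _)
    j k
  simpa only [Matrix.mul_zero, add_zero] using h2

/-- the time derivative of a smooth family of forms is a smooth family of forms. -/
theorem IsHFormST.of_isTimeDeriv (hI : IsTimeDom I) (hA : IsHFormST 𝓜 I A)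
    (hd : IsTimeDeriv 𝓜 I A A') : IsHFormST 𝓜 I A' := by
  have hsm : SmoothFam 𝓜 I A' := fun Φ U hΦ j k =>
    contDiffOn_of_hasDerivWithinAt_slice (Ft := fun q : ℝ × CE ι => A' q.1 Φ q.2 j k) hI
      (CMfd.isOpen_dom hΦ) (hA.smooth Φ U hΦ j k) (fun t ht y hy => hd Φ U hΦ y hy t ht j k)
  refine ⟨fun t ht => ⟨fun {Φ U} hΦ z hz => ?_, fun {Φ U} hΦ j k => ?_,
    fun {Φ Ψ U W} hΦ hΨ z hz hz' => ?_⟩, hsm⟩
  · ext j k
    have h1 : HasDerivWithinAt (fun s => conj (A s Φ z k j)) (conj (A' t Φ z k j)) I t :=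
      (hd Φ U hΦ z hz t ht k j).star
    have h2 : HasDerivWithinAt (fun s => conj (A s Φ z k j)) (A' t Φ z j k) I t :=
      (hd Φ U hΦ z hz t ht j k).congr (fun s hs => ((hA.form s hs).herm hΦ z hz).apply j k)
        (((hA.form t ht).herm hΦ z hz).apply j k)
    exact (hI.uniqueDiffWithinAt ht).eq_deriv _ h1 h2
  · exact contDiffOn_slice_space (hsm Φ U hΦ j k) ht
  · ext j k
    have h1 := st_hasDerivWithinAt_conj_mul (jac (Function.invFunOn Ψ W ∘ Φ) z)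
      (M := fun s => A s Ψ (Function.invFunOn Ψ W (Φ z))) (M' := A' t Ψ (Function.invFunOn Ψ W (Φ z)))
      (s := I) (t := t) (fun a b => hd Ψ W hΨ _ (Function.invFunOn_mem hz') t ht a b) j k
    have h2 : HasDerivWithinAt (fun s => ((jac (Function.invFunOn Ψ W ∘ Φ) z)ᴴ
        * A s Ψ (Function.invFunOn Ψ W (Φ z)) * jac (Function.invFunOn Ψ W ∘ Φ) z) j k)
        (A' t Φ z j k) I t :=
      (hd Φ U hΦ z hz t ht j k).congr
        (fun s hs => by rw [← (hA.form s hs).compat hΦ hΨ z hz hz'])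
        (by rw [← (hA.form t ht).compat hΦ hΨ z hz hz'])
    exact (hI.uniqueDiffWithinAt ht).eq_deriv _ h2 h1

/-- existence of the time derivative. -/
theorem IsHFormST.exists_isTimeDeriv (hA : IsHFormST 𝓜 I A) :
    IsTimeDeriv 𝓜 I A (fun t Φ z => Matrix.of fun j k => derivWithin (fun s => A s Φ z j k) I t) := by
  exact fun Φ U hΦ z hz t ht j k => hasDerivWithinAt_slice (hA.smooth Φ U hΦ j k) ht hz

/-- chartwise pairing `⟨A,B⟩_h = tr (H⁻¹ A H⁻¹ B)` of two Hermitian forms. -/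
noncomputable def ipF (h A B : HFam V ι) : (CE ι → V) → CE ι → ℝ :=
  fun Φ z => ((h Φ z)⁻¹ * A Φ z * (h Φ z)⁻¹ * B Φ z).trace.re

/-- `⟨A,B⟩_h` as a function on the manifold. -/
noncomputable def ipH (𝓜 : CMfd V ι) (h A B : HFam V ι) : V → ℝ := 𝓜.scal (ipF h A B)

section ip

variable {h A B : HFam V ι}

theorem st_inv_conj_mul {T : Matrix ι ι ℂ} (hT : T.det ≠ 0) (H A : Matrix ι ι ℂ) :
    (Tᴴ * H * T)⁻¹ * (Tᴴ * A * T) = T⁻¹ * (H⁻¹ * A) * T := by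
  have hT' : IsUnit (Tᴴ).det := by
    rw [Matrix.det_conjTranspose]
    exact isUnit_iff_ne_zero.2 (star_ne_zero.2 hT)
  rw [Matrix.mul_inv_rev, Matrix.mul_inv_rev]
  calc T⁻¹ * (H⁻¹ * (Tᴴ)⁻¹) * (Tᴴ * A * T)
      = T⁻¹ * (H⁻¹ * ((Tᴴ)⁻¹ * Tᴴ) * A) * T := by simp only [Matrix.mul_assoc]
    _ = T⁻¹ * (H⁻¹ * A) * T := by rw [Matrix.nonsing_inv_mul _ hT', Matrix.mul_one]

theorem st_trace_ip_conj {T : Matrix ι ι ℂ} (hT : T.det ≠ 0) (H A B : Matrix ι ι ℂ) :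
    ((Tᴴ * H * T)⁻¹ * (Tᴴ * A * T) * (Tᴴ * H * T)⁻¹ * (Tᴴ * B * T)).trace
      = (H⁻¹ * A * H⁻¹ * B).trace := by
  have hT' : IsUnit T.det := isUnit_iff_ne_zero.2 hT
  rw [Matrix.mul_assoc ((Tᴴ * H * T)⁻¹ * (Tᴴ * A * T)), st_inv_conj_mul hT, st_inv_conj_mul hT]
  calc (T⁻¹ * (H⁻¹ * A) * T * (T⁻¹ * (H⁻¹ * B) * T)).trace
      = (T⁻¹ * ((H⁻¹ * A) * (T * T⁻¹) * (H⁻¹ * B)) * T).trace := by simp only [Matrix.mul_assoc]
    _ = (T⁻¹ * ((H⁻¹ * A) * (H⁻¹ * B)) * T).trace := by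
        rw [Matrix.mul_nonsing_inv _ hT', Matrix.mul_one]
    _ = ((H⁻¹ * A) * (H⁻¹ * B) * (T * T⁻¹)).trace := by
        rw [Matrix.trace_mul_cycle, Matrix.trace_mul_comm]
    _ = (H⁻¹ * A * H⁻¹ * B).trace := by
        rw [Matrix.mul_nonsing_inv _ hT', Matrix.mul_one]
        simp only [Matrix.mul_assoc]

/-- `tr (H⁻¹ A H⁻¹ A) = ∑ d_i²`, `tr (H⁻¹ A) = ∑ d_i` in a simultaneous diagonalisation. -/
theorem st_exists_eigen {H A : Matrix ι ι ℂ} (hH : H.PosDef) (hA : A.IsHermitian) :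
    ∃ d : ι → ℝ, (H⁻¹ * A).trace.re = ∑ i, d i ∧ (H⁻¹ * A * H⁻¹ * A).trace.re = ∑ i, d i ^ 2 ∧
      (A.PosSemidef → ∀ i, 0 ≤ d i) := by
  obtain ⟨T, d, hT, h1, hD⟩ := exists_simDiag hH hA
  have hT' : IsUnit T.det := isUnit_iff_ne_zero.2 hT
  refine ⟨d, simDiag_trace_re h1 hD, ?_, fun hp => (simDiag_posSemidef_iff h1 hD).1 hp⟩
  have e := simDiag_inv_mul h1 hD
  rw [Matrix.mul_assoc (H⁻¹ * A), e]
  have e2 : T * (Matrix.diagonal fun i => ((d i : ℝ) : ℂ)) * T⁻¹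
      * (T * (Matrix.diagonal fun i => ((d i : ℝ) : ℂ)) * T⁻¹)
      = T * ((Matrix.diagonal fun i => ((d i : ℝ) : ℂ)) * (T⁻¹ * T)
        * (Matrix.diagonal fun i => ((d i : ℝ) : ℂ))) * T⁻¹ := by
    simp only [Matrix.mul_assoc]
  rw [e2, Matrix.nonsing_inv_mul _ hT', Matrix.mul_one, Matrix.diagonal_mul_diagonal,
    Matrix.trace_mul_cycle, Matrix.nonsing_inv_mul _ hT', Matrix.one_mul, Matrix.trace_diagonal,
    Complex.re_sum]
  refine Finset.sum_congr rfl fun i _ => ?_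
  rw [← Complex.ofReal_mul, Complex.ofReal_re, sq]

theorem invariant_ipF (hh : IsMetric 𝓜 h) (hA : IsHForm 𝓜 A) (hB : IsHForm 𝓜 B) :
    𝓜.Invariant (ipF h A B) := by
  rw [CMfd.invariant_iff]
  intro Φ Ψ U W hΦ hΨ z hz
  simp only [R316.ipF]
  rw [hh.toIsHForm.compat_trans hΦ hΨ hz, hA.compat_trans hΦ hΨ hz, hB.compat_trans hΦ hΨ hz,
    st_trace_ip_conj (CMfd.det_jac_trans_ne_zero hΦ hΨ hz)]

theorem ipH_eq (hh : IsMetric 𝓜 h) (hA : IsHForm 𝓜 A) (hB : IsHForm 𝓜 B) (hΦ : 𝓜.IsHol Φ U)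
    (hz : z ∈ U) :
    ipH 𝓜 h A B (Φ z) = ((h Φ z)⁻¹ * A Φ z * (h Φ z)⁻¹ * B Φ z).trace.re := by
  exact CMfd.scal_eq (invariant_ipF hh hA hB) hΦ hz

theorem st_contDiffOn_ip {E : Type} [NormedAddCommGroup E] [NormedSpace ℝ E] {s : Set E}
    {H A B : E → Matrix ι ι ℂ} (hH : ∀ j k, ContDiffOn ℝ ∞ (fun w => H w j k) s)
    (h0 : ∀ w ∈ s, (H w).det ≠ 0) (hA : ∀ j k, ContDiffOn ℝ ∞ (fun w => A w j k) s)
    (hB : ∀ j k, ContDiffOn ℝ ∞ (fun w => B w j k) s) :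
    ContDiffOn ℝ ∞ (fun w => ((H w)⁻¹ * A w * (H w)⁻¹ * B w).trace.re) s := by
  have hi := contDiffOn_matInv hH h0
  exact Complex.reCLM.contDiff.comp_contDiffOn (contDiffOn_matTrace
    (contDiffOn_matMul (contDiffOn_matMul (contDiffOn_matMul hi hA) hi) hB))

theorem smooth_ipH (hh : IsMetric 𝓜 h) (hA : IsHForm 𝓜 A) (hB : IsHForm 𝓜 B) :
    𝓜.Smooth (ipH 𝓜 h A B) := by
  exact CMfd.smooth_scal (invariant_ipF hh hA hB) fun Φ U hΦ =>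
    st_contDiffOn_ip (fun j k => hh.smooth hΦ j k) (fun w hw => hh.det_ne_zero hΦ hw)
      (fun j k => hA.smooth hΦ j k) (fun j k => hB.smooth hΦ j k)

theorem ipH_comm (𝓜 : CMfd V ι) (h A B : HFam V ι) (x : V) : ipH 𝓜 h A B x = ipH 𝓜 h B A x := by
  simp only [R316.ipH, CMfd.scal, R316.ipF]
  rw [Matrix.mul_assoc (_ * _), Matrix.trace_mul_comm, ← Matrix.mul_assoc]

theorem ipH_self_nonneg (hh : IsMetric 𝓜 h) (hA : IsHForm 𝓜 A) (hx : x ∈ 𝓜.carrier) :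
    0 ≤ ipH 𝓜 h A A x := by
  obtain ⟨d, -, h2, -⟩ := st_exists_eigen (hh.posDef (CMfd.isHol_pΦ 𝓜 hx) _ (CMfd.co_mem 𝓜 hx))
    (hA.herm (CMfd.isHol_pΦ 𝓜 hx) _ (CMfd.co_mem 𝓜 hx))
  show 0 ≤ (_ : Matrix ι ι ℂ).trace.re
  rw [h2]
  exact Finset.sum_nonneg fun i _ => sq_nonneg _

/-- `⟨A,B⟩_h ≥ 0` for `A, B ≥ 0`. -/
theorem ipH_nonneg (hh : IsMetric 𝓜 h) (hA : leF 𝓜 (fun _ _ => 0) A) (hB : leF 𝓜 (fun _ _ => 0) B)
    (hx : x ∈ 𝓜.carrier) : 0 ≤ ipH 𝓜 h A B x := by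
  have hH := hh.posDef (CMfd.isHol_pΦ 𝓜 hx) _ (CMfd.co_mem 𝓜 hx)
  have a := leF_zero_iff.1 hA _ _ (CMfd.isHol_pΦ 𝓜 hx) _ (CMfd.co_mem 𝓜 hx)
  have b := leF_zero_iff.1 hB _ _ (CMfd.isHol_pΦ 𝓜 hx) _ (CMfd.co_mem 𝓜 hx)
  have c : ((h (𝓜.pΦ x) (𝓜.co x))⁻¹ * A (𝓜.pΦ x) (𝓜.co x) * (h (𝓜.pΦ x) (𝓜.co x))⁻¹).PosSemidef := by
    have := a.conjTranspose_mul_mul_same (h (𝓜.pΦ x) (𝓜.co x))⁻¹
    rwa [hH.inv.isHermitian.eq] at this
  exact trace_mul_nonneg c b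

/-- `⟨h,B⟩_h = tr_h B`. -/
theorem ipH_metric_left (hh : IsMetric 𝓜 h) (B : HFam V ι) (hx : x ∈ 𝓜.carrier) :
    ipH 𝓜 h h B x = tr 𝓜 h B x := by
  have hH := hh.posDef (CMfd.isHol_pΦ 𝓜 hx) _ (CMfd.co_mem 𝓜 hx)
  simp only [R316.ipH, R316.tr, CMfd.scal, R316.ipF, R316.trF]
  rw [inv_mul_cancel_of_posDef hH, Matrix.one_mul]

/-- `(tr_h A)² ≤ n |A|²_h`. -/
theorem tr_sq_le_card_mul_ipH (hh : IsMetric 𝓜 h) (hA : IsHForm 𝓜 A) (hx : x ∈ 𝓜.carrier) :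
    tr 𝓜 h A x ^ 2 ≤ Fintype.card ι * ipH 𝓜 h A A x := by
  obtain ⟨d, h1, h2, -⟩ := st_exists_eigen (hh.posDef (CMfd.isHol_pΦ 𝓜 hx) _ (CMfd.co_mem 𝓜 hx))
    (hA.herm (CMfd.isHol_pΦ 𝓜 hx) _ (CMfd.co_mem 𝓜 hx))
  show (_ : Matrix ι ι ℂ).trace.re ^ 2 ≤ _ * (_ : Matrix ι ι ℂ).trace.re
  rw [h1, h2]
  exact sq_sum_le_card_mul_sum_sq

/-- `|A|²_h ≤ (tr_h A)²` for `A ≥ 0`. -/
theorem ipH_self_le_tr_sq (hh : IsMetric 𝓜 h) (hA : leF 𝓜 (fun _ _ => 0) A) (hx : x ∈ 𝓜.carrier) :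
    ipH 𝓜 h A A x ≤ tr 𝓜 h A x ^ 2 := by
  have a := leF_zero_iff.1 hA _ _ (CMfd.isHol_pΦ 𝓜 hx) _ (CMfd.co_mem 𝓜 hx)
  obtain ⟨d, h1, h2, h3⟩ := st_exists_eigen (hh.posDef (CMfd.isHol_pΦ 𝓜 hx) _ (CMfd.co_mem 𝓜 hx))
    a.isHermitian
  show (_ : Matrix ι ι ℂ).trace.re ≤ (_ : Matrix ι ι ℂ).trace.re ^ 2
  rw [h1, h2]
  exact Finset.sum_sq_le_sq_sum_of_nonneg fun i _ => h3 a i

end ip

theorem smoothST_ipH (hh : IsMetricST 𝓜 I h) (hA : IsHFormST 𝓜 I A) (hB : IsHFormST 𝓜 I B) :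
    𝓜.SmoothST I (fun t => ipH 𝓜 (h t) (A t) (B t)) := by
  intro Φ U hΦ
  exact (st_contDiffOn_ip (H := fun q : ℝ × CE ι => h q.1 Φ q.2)
    (A := fun q : ℝ × CE ι => A q.1 Φ q.2) (B := fun q : ℝ × CE ι => B q.1 Φ q.2)
    (fun a b => hh.smooth Φ U hΦ a b) (fun q hq => (hh.metric q.1 hq.1).det_ne_zero hΦ hq.2)
    (fun a b => hA.smooth Φ U hΦ a b) (fun a b => hB.smooth Φ U hΦ a b)).congr
    (fun q hq => ipH_eq (hh.metric q.1 hq.1) (hA.form q.1 hq.1) (hB.form q.1 hq.1) hΦ hq.2)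

/-- `d/dt log (det h_t / det g) = tr_{h_t} (∂_t h)`. -/
theorem hasDerivWithinAt_log_detRatio_of_isTimeDeriv {g : HFam V ι} (hh : ∀ t ∈ I, IsMetric 𝓜 (h t))
    (hg : IsMetric 𝓜 g) (hd : IsTimeDeriv 𝓜 I h h') (ht : t ∈ I) (hx : x ∈ 𝓜.carrier) :
    HasDerivWithinAt (fun s => Real.log (detRatio 𝓜 (h s) g x)) (tr 𝓜 (h t) (h' t) x) I t := by
  have hp := CMfd.isHol_pΦ 𝓜 hx
  have hc := CMfd.co_mem 𝓜 hx
  have h1 := (hasDerivWithinAt_logDet (H := fun s => h s (𝓜.pΦ x) (𝓜.co x))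
    (H' := h' t (𝓜.pΦ x) (𝓜.co x)) (fun j k => hd _ _ hp _ hc t ht j k)
    ((hh t ht).posDef hp _ hc)).sub_const (Real.log (g (𝓜.pΦ x) (𝓜.co x)).det.re)
  exact h1.congr (fun s hs => log_det_div_re ((hh s hs).posDef hp _ hc) (hg.posDef hp _ hc))
    (log_det_div_re ((hh t ht).posDef hp _ hc) (hg.posDef hp _ hc))

/-- `d/dt (det h_t / det g) = (det h_t / det g) tr_{h_t} (∂_t h)`. -/
theorem hasDerivWithinAt_detRatio {g : HFam V ι} (hh : ∀ t ∈ I, IsMetric 𝓜 (h t))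
    (hg : IsMetric 𝓜 g) (hd : IsTimeDeriv 𝓜 I h h') (ht : t ∈ I) (hx : x ∈ 𝓜.carrier) :
    HasDerivWithinAt (fun s => detRatio 𝓜 (h s) g x)
      (detRatio 𝓜 (h t) g x * tr 𝓜 (h t) (h' t) x) I t := by
  have h1 := (hasDerivWithinAt_log_detRatio_of_isTimeDeriv hh hg hd ht hx).exp
  rw [Real.exp_log (detRatio_pos (hh t ht) hg hx)] at h1
  exact h1.congr (fun s hs => (Real.exp_log (detRatio_pos (hh s hs) hg hx)).symm)
    (Real.exp_log (detRatio_pos (hh t ht) hg hx)).symm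

/-- `d/dt tr_{h_t} A_t = tr_h (∂_t A) - ⟨∂_t h, A⟩_h`. -/
theorem hasDerivWithinAt_tr (hh : ∀ t ∈ I, IsMetric 𝓜 (h t)) (hd : IsTimeDeriv 𝓜 I h h')
    (hA : IsTimeDeriv 𝓜 I A A') (ht : t ∈ I) (hx : x ∈ 𝓜.carrier) :
    HasDerivWithinAt (fun s => tr 𝓜 (h s) (A s) x)
      (tr 𝓜 (h t) (A' t) x - ipH 𝓜 (h t) (h' t) (A t) x) I t := by
  have hp := CMfd.isHol_pΦ 𝓜 hx
  have hc := CMfd.co_mem 𝓜 hx
  exact hasDerivWithinAt_trace_inv_mul_re (H := fun s => h s (𝓜.pΦ x) (𝓜.co x))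
    (H' := h' t (𝓜.pΦ x) (𝓜.co x)) (A := fun s => A s (𝓜.pΦ x) (𝓜.co x))
    (A' := A' t (𝓜.pΦ x) (𝓜.co x)) (fun j k => hd _ _ hp _ hc t ht j k)
    ((hh t ht).det_ne_zero hp hc) (fun j k => hA _ _ hp _ hc t ht j k)

/-- `d/dt Δ_{h_t} u_t = Δ_h u_t' - ⟨∂_t h, dd u⟩_h`. -/
theorem hasDerivWithinAt_lap (hI : IsTimeDom I) (hh : ∀ t ∈ I, IsMetric 𝓜 (h t))
    (hd : IsTimeDeriv 𝓜 I h h') (hu : 𝓜.SmoothST I u)
    (hut : ∀ t ∈ I, ∀ x ∈ 𝓜.carrier, HasDerivWithinAt (fun s => u s x) (ut t x) I t)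
    (ht : t ∈ I) (hx : x ∈ 𝓜.carrier) :
    HasDerivWithinAt (fun s => lap 𝓜 (h s) (u s) x)
      (lap 𝓜 (h t) (ut t) x - ipH 𝓜 (h t) (h' t) (ddc (u t)) x) I t := by
  exact hasDerivWithinAt_tr (A := fun t => ddc (u t)) (A' := fun t => ddc (ut t)) hh hd
    (isTimeDeriv_ddc hI hu hut) ht hx

/-- `d/dt (∂u ⊗ \bar∂u) = ∂u ⊗ \bar∂u_t + ∂u_t ⊗ \bar∂u`. -/
theorem isTimeDeriv_gradF (hI : IsTimeDom I) (hu : 𝓜.SmoothST I u)
    (hut : ∀ t ∈ I, ∀ x ∈ 𝓜.carrier, HasDerivWithinAt (fun s => u s x) (ut t x) I t) :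
    IsTimeDeriv 𝓜 I (fun t => gradF (u t)) (fun t => crossF (u t) (ut t)) := by
  intro Φ U hΦ z hz t ht j k
  have a := hasDerivWithinAt_grad10 hI hu hut hΦ hz ht j
  have b := hasDerivWithinAt_grad10 hI hu hut hΦ hz ht k
  have c := a.star.mul b
  show HasDerivWithinAt (fun s => gradF (u s) Φ z j k) (crossF (u t) (ut t) Φ z j k) I t
  rw [crossF_apply, add_comm]
  exact c

/-- `d/dt |∂u|²_{h_t} = 2 ⟨∂u, ∂u_t⟩_h - ⟨∂_t h, ∂u ⊗ \bar∂u⟩_h`. -/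
theorem hasDerivWithinAt_gradSq (hI : IsTimeDom I) (hh : ∀ t ∈ I, IsMetric 𝓜 (h t))
    (hd : IsTimeDeriv 𝓜 I h h') (hu : 𝓜.SmoothST I u)
    (hut : ∀ t ∈ I, ∀ x ∈ 𝓜.carrier, HasDerivWithinAt (fun s => u s x) (ut t x) I t)
    (ht : t ∈ I) (hx : x ∈ 𝓜.carrier) :
    HasDerivWithinAt (fun s => gradSq 𝓜 (h s) (u s) x)
      (2 * gradInner 𝓜 (h t) (u t) (ut t) x - ipH 𝓜 (h t) (h' t) (gradF (u t)) x) I t := by
  have h1 := hasDerivWithinAt_tr (A := fun t => gradF (u t)) (A' := fun t => crossF (u t) (ut t))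
    hh hd (isTimeDeriv_gradF hI hu hut) ht hx
  rw [tr_crossF (hh t ht) _ _ hx] at h1
  exact h1.congr (fun s _ => (tr_gradF 𝓜 (h s) (u s) x).symm) (tr_gradF 𝓜 (h t) (u t) x).symm

/-- `d/dt Ric h_t = - dd tr_h (∂_t h)`. -/
theorem isTimeDeriv_ricF (hI : IsTimeDom I) (hh : IsMetricST 𝓜 I h) (hd : IsTimeDeriv 𝓜 I h h') :
    IsTimeDeriv 𝓜 I (fun t => ricF (h t)) (fun t Φ z => - ddc (tr 𝓜 (h t) (h' t)) Φ z) := by
  have hf' := hh.isHFormST.of_isTimeDeriv hI hd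
  intro Φ U hΦ z hz t ht j k
  have h1 := hasDerivWithinAt_levi_slice
    (F := fun q : ℝ × CE ι => Real.log (h q.1 Φ q.2).det.re)
    (Ft := fun q : ℝ × CE ι => tr 𝓜 (h q.1) (h' q.1) (Φ q.2)) hI (CMfd.isOpen_dom hΦ)
    (contDiffOn_logDet_of_posDef (fun a b => hh.smooth Φ U hΦ a b)
      (fun q hq => (hh.metric q.1 hq.1).posDef hΦ q.2 hq.2))
    (fun t ht y hy => by
      show HasDerivWithinAt _ (tr 𝓜 (h t) (h' t) (Φ y)) I t
      rw [tr_eq (hh.metric t ht) (hf'.form t ht) hΦ hy]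
      exact hasDerivWithinAt_logDet (H := fun s => h s Φ y) (fun a b => hd Φ U hΦ y hy t ht a b)
        ((hh.metric t ht).posDef hΦ y hy)) ht hz j k
  exact h1.neg

end timederiv

/-! ## Part 4: `flowMetric` -/

section flow

variable {V : Type} [NormedAddCommGroup V] [NormedSpace ℝ V]
variable {n : ℕ} {𝓜 : CMfd V (Fin n)} {g : HFam V (Fin n)} {Uf P : ℝ → V → ℝ}
variable {I : Set ℝ} {Φ : CE (Fin n) → V} {U : Set (CE (Fin n))} {z : CE (Fin n)} {t : ℝ} {x : V}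

theorem flowMetric_apply (g : HFam V (Fin n)) (Uf : ℝ → V → ℝ) (t : ℝ) (Φ : CE (Fin n) → V)
    (z : CE (Fin n)) :
    flowMetric g Uf t Φ z = g Φ z - (t : ℂ) • ricF g Φ z + ddc (Uf t) Φ z := rfl

theorem isHForm_flowMetric (hg : IsMetric 𝓜 g) (hU : 𝓜.Smooth (Uf t)) :
    IsHForm 𝓜 (flowMetric g Uf t) := by
  exact (hg.toIsHForm.sub ((isHForm_ricF hg).smul_real t)).add (isHForm_ddc hU)

theorem isClosedForm_flowMetric (hg : IsKahler 𝓜 g) (hU : 𝓜.Smooth (Uf t)) :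
    IsClosedForm 𝓜 (flowMetric g Uf t) := by
  exact IsClosedForm.add (hg.toIsHForm.sub ((isHForm_ricF hg.toIsMetric).smul_real t))
    (isHForm_ddc hU)
    (IsClosedForm.sub hg.toIsHForm ((isHForm_ricF hg.toIsMetric).smul_real t) hg.closed
      (IsClosedForm.smul_real t (isHForm_ricF hg.toIsMetric) (isClosedForm_ricF hg.toIsMetric)))
    (isClosedForm_ddc hU)

theorem isKahler_flowMetric (hg : IsKahler 𝓜 g) (hU : 𝓜.Smooth (Uf t))
    (hm : IsMetric 𝓜 (flowMetric g Uf t)) : IsKahler 𝓜 (flowMetric g Uf t) := by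
  exact ⟨hm, isClosedForm_flowMetric hg hU⟩

theorem isHFormST_flowMetric (hI : IsTimeDom I) (hg : IsMetric 𝓜 g) (hU : 𝓜.SmoothST I Uf) :
    IsHFormST 𝓜 I (flowMetric g Uf) := by
  exact ((isHFormST_const hg.toIsHForm I).sub
    ((isHFormST_const (isHForm_ricF hg) I).smul_time (a := fun t => t) contDiffOn_id)).add
    (isHFormST_ddc hI hU)

theorem isMetricST_flowMetric (hI : IsTimeDom I) (hg : IsMetric 𝓜 g) (hU : 𝓜.SmoothST I Uf)
    (hm : ∀ t ∈ I, IsMetric 𝓜 (flowMetric g Uf t)) : IsMetricST 𝓜 I (flowMetric g Uf) := by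
  exact ⟨hm, (isHFormST_flowMetric hI hg hU).smooth⟩

theorem flowMetric_zero (hU0 : ∀ x ∈ 𝓜.carrier, Uf 0 x = 0) (hΦ : 𝓜.IsHol Φ U) (hz : z ∈ U) :
    flowMetric g Uf 0 Φ z = g Φ z := by
  have h1 : ddc (Uf 0) Φ z = ddc (fun _ => (0 : ℝ)) Φ z :=
    ddc_congr (𝓜 := 𝓜) (fun x hx => hU0 x hx) hΦ hz
  rw [flowMetric_apply, h1, ddc_const]
  simp

/-- `∂_t h = - Ric g + dd U_t`. -/
theorem isTimeDeriv_flowMetric (hI : IsTimeDom I) (hU : 𝓜.SmoothST I Uf)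
    (hUt : ∀ t ∈ I, ∀ x ∈ 𝓜.carrier, HasDerivWithinAt (fun s => Uf s x) (P t x) I t) :
    IsTimeDeriv 𝓜 I (flowMetric g Uf) (fun t Φ z => - ricF g Φ z + ddc (P t) Φ z) := by
  have h1 := ((isTimeDeriv_const 𝓜 I g).sub
    ((isTimeDeriv_const 𝓜 I (ricF g)).smul_time (a := fun t => t) (a' := fun _ => 1)
      (fun t _ => (hasDerivAt_id t).hasDerivWithinAt))).add (isTimeDeriv_ddc hI hU hUt)
  intro Φ U hΦ z hz t ht j k
  have h2 := h1 Φ U hΦ z hz t ht j k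
  simpa [flowMetric_apply] using h2

/-- if `P = log (det h_t / det g)` then `- Ric g + dd P = - Ric h_t`. -/
theorem neg_ricF_add_ddc_eq (hg : IsMetric 𝓜 g) (hm : IsMetric 𝓜 (flowMetric g Uf t))
    (hP : ∀ x ∈ 𝓜.carrier, P t x = Real.log (detRatio 𝓜 (flowMetric g Uf t) g x))
    (hΦ : 𝓜.IsHol Φ U) (hz : z ∈ U) :
    - ricF g Φ z + ddc (P t) Φ z = - ricF (flowMetric g Uf t) Φ z := by
  have h1 : ddc (P t) Φ z = ddc (fun x => Real.log (detRatio 𝓜 (flowMetric g Uf t) g x)) Φ z :=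
    ddc_congr (𝓜 := 𝓜) (fun x hx => hP x hx) hΦ hz
  have h2 := ricF_sub_ricF hm hg hΦ hz
  rw [h1, ← neg_eq_iff_eq_neg.2 h2]
  abel

/-- the flow equation `∂_t h = - Ric h`. -/
theorem isTimeDeriv_flowMetric_ricF (hI : IsTimeDom I) (hg : IsMetric 𝓜 g)
    (hU : 𝓜.SmoothST I Uf)
    (hUt : ∀ t ∈ I, ∀ x ∈ 𝓜.carrier, HasDerivWithinAt (fun s => Uf s x) (P t x) I t)
    (hm : ∀ t ∈ I, IsMetric 𝓜 (flowMetric g Uf t))
    (hP : ∀ t ∈ I, ∀ x ∈ 𝓜.carrier, P t x = Real.log (detRatio 𝓜 (flowMetric g Uf t) g x)) :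
    IsTimeDeriv 𝓜 I (flowMetric g Uf) (fun t Φ z => - ricF (flowMetric g Uf t) Φ z) := by
  intro Φ U hΦ z hz t ht j k
  have h1 := isTimeDeriv_flowMetric (g := g) hI hU hUt Φ U hΦ z hz t ht j k
  show HasDerivWithinAt _ ((- ricF (flowMetric g Uf t) Φ z) j k) I t
  rw [← neg_ricF_add_ddc_eq hg (hm t ht) (hP t ht) hΦ hz]
  exact h1

/-- `∂_t log (det h_t / det g) = - R_{h_t}`. -/
theorem hasDerivWithinAt_log_detRatio_flowMetric (hI : IsTimeDom I) (hg : IsMetric 𝓜 g)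
    (hU : 𝓜.SmoothST I Uf)
    (hUt : ∀ t ∈ I, ∀ x ∈ 𝓜.carrier, HasDerivWithinAt (fun s => Uf s x) (P t x) I t)
    (hm : ∀ t ∈ I, IsMetric 𝓜 (flowMetric g Uf t))
    (hP : ∀ t ∈ I, ∀ x ∈ 𝓜.carrier, P t x = Real.log (detRatio 𝓜 (flowMetric g Uf t) g x))
    (ht : t ∈ I) (hx : x ∈ 𝓜.carrier) :
    HasDerivWithinAt (fun s => Real.log (detRatio 𝓜 (flowMetric g Uf s) g x))
      (- scalCurv 𝓜 (flowMetric g Uf t) x) I t := by
  have h1 := hasDerivWithinAt_log_detRatio_of_isTimeDeriv hm hg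
    (isTimeDeriv_flowMetric_ricF hI hg hU hUt hm hP) ht hx
  rw [tr_neg] at h1
  exact h1

/-- `∂_t P = Δ_{h_t} P - tr_{h_t} Ric g`. -/
theorem scalCurv_flowMetric_eq (hg : IsMetric 𝓜 g) (hm : IsMetric 𝓜 (flowMetric g Uf t))
    (hP : ∀ x ∈ 𝓜.carrier, P t x = Real.log (detRatio 𝓜 (flowMetric g Uf t) g x))
    (hx : x ∈ 𝓜.carrier) :
    - scalCurv 𝓜 (flowMetric g Uf t) x
      = lap 𝓜 (flowMetric g Uf t) (P t) x - tr 𝓜 (flowMetric g Uf t) (ricF g) x := by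
  have h1 : tr 𝓜 (flowMetric g Uf t) (fun Φ z => ddc (P t) Φ z - ricF g Φ z) x
      = tr 𝓜 (flowMetric g Uf t) (fun Φ z => - ricF (flowMetric g Uf t) Φ z) x :=
    tr_congr (fun Φ U hΦ z hz => by
      rw [← neg_ricF_add_ddc_eq hg hm hP hΦ hz]
      abel) hx
  rw [tr_sub, tr_neg] at h1
  exact h1.symm

end flow

end Claimed.Agent.R316
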