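import Claimed.Agent.R316.Pack003
import Claimed.Agent.R316.CW.Levi
import Claimed.Agent.R316.Pack005

/-!
# Row 316, CM-7: maximum principle toolkit on `CMfd`

Statements by captain helper258, proofs by helper141 (complete).  (Allowed imports: `CM/Forms.lean`,
`Base/Vol/Calc.lean`); statements and names are frozen.  Consumers: S3-A3, A4, D2, D4, G9, G10, S7, B8M, B9.

* §1 pointwise facts at an interior (space-time) maximum: reduce to `CW/Levi.lean` (`spacetime_max`, `neg_levi_posSemidef_of_isLocalMax`)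
  in the chosen parametrisation; `tr (H⁻¹ A) ≤ 0` for `H > 0`, `A ≤ 0` (`CW/MatAlg.lean`).
* §2 `maxP_compact`: at a positive maximum of `e^{-(C+1)t} w` over the compact set `[0,T] × K`.
* §3 `maxP_barrier`: apply §2 to `w - ε Q`.
* §4 `tensor_maxP` (Hamilton's first touching argument): `t₀ := inf` of the times at which `B_t - A_t` is not positive definite somewhere;
  the set of `(t,x)` where it is not positive definite is closed in `[0,T] × K` (compactness of the unit sphere, continuity of the entries in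
  finitely many parametrisations over compact pieces), so the infimum is attained, `t₀ > 0`, and `A_t ≤ B_t` for `t ≤ t₀`.
-/

set_option autoImplicit false
set_option linter.unusedSectionVars false
open scoped ContDiff ComplexOrder Topology

namespace Claimed.Agent.R316

variable {V : Type} [NormedAddCommGroup V] [NormedSpace ℝ V] [FiniteDimensional ℝ V]
variable {ι : Type} [Fintype ι] [DecidableEq ι]
variable {𝓜 : CMfd V ι}

/-! ### 1. interior maxima -/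

theorem mp_isLocalMax {u : V → ℝ} {Φ : CE ι → V} {U : Set (CE ι)}
    (hΦ : 𝓜.IsHol Φ U) {z : CE ι} (hz : z ∈ U)
    (hmax : ∀ᶠ y in 𝓝[𝓜.carrier] (Φ z), u y ≤ u (Φ z)) : IsLocalMax (u ∘ Φ) z := by
  rw [← (𝓜.isParam hΦ).map_nhds_eq hz] at hmax
  exact Filter.eventually_map.1 hmax

/-- time derivative at a maximum over `[0,t₀]`, derivative within `[0,T]`. -/
theorem mp_deriv_nonneg {φ : ℝ → ℝ} {T t₀ a : ℝ} (ht₀ : t₀ ∈ Set.Ioc 0 T)
    (h : HasDerivWithinAt φ a (Set.Icc 0 T) t₀) (hmax : ∀ t ∈ Set.Icc 0 t₀, φ t ≤ φ t₀) :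
    0 ≤ a := by
  have h1 : HasDerivWithinAt φ a (Set.Iic t₀) t₀ :=
    h.mono_of_mem_nhdsWithin (Icc_mem_nhdsLE_of_mem ht₀)
  refine deriv_nonneg_of_max_left h1 ?_
  filter_upwards [Icc_mem_nhdsLE ht₀.1] with t ht using hmax t ht

/-- interior local maximum, in any parametrisation. -/
theorem ddc_nonpos_of_localMax {u : V → ℝ} (hu : 𝓜.Smooth u) {Φ : CE ι → V} {U : Set (CE ι)}
    (hΦ : 𝓜.IsHol Φ U) {z : CE ι} (hz : z ∈ U)
    (hmax : ∀ᶠ y in 𝓝[𝓜.carrier] (Φ z), u y ≤ u (Φ z)) :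
    grad10 (u ∘ Φ) z = 0 ∧ (- ddc u Φ z).PosSemidef := by
  have h1 := mp_isLocalMax hΦ hz hmax
  exact ⟨grad10_eq_zero_of_isLocalMax h1,
    neg_levi_posSemidef_of_isLocalMax (hu.contDiffAt_comp_two hΦ hz) h1⟩

theorem lap_nonpos_of_localMax {h : HFam V ι} (hh : IsMetric 𝓜 h) {u : V → ℝ} (hu : 𝓜.Smooth u) {x : V}
    (hx : x ∈ 𝓜.carrier) (hmax : ∀ᶠ y in 𝓝[𝓜.carrier] x, u y ≤ u x) :
    lap 𝓜 h u x ≤ 0 ∧ gradSq 𝓜 h u x = 0 := by
  have hΦ := CMfd.isHol_pΦ 𝓜 hx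
  have hz := CMfd.co_mem 𝓜 hx
  have hmax' : ∀ᶠ y in 𝓝[𝓜.carrier] (𝓜.pΦ x (𝓜.co x)), u y ≤ u (𝓜.pΦ x (𝓜.co x)) := by
    rw [CMfd.pΦ_co 𝓜 hx]
    exact hmax
  obtain ⟨h1, h2⟩ := ddc_nonpos_of_localMax hu hΦ hz hmax'
  constructor
  · have h3 : 0 ≤ lapP (h (𝓜.pΦ x) (𝓜.co x)) (fun y => - (u ∘ 𝓜.pΦ x) y) (𝓜.co x) :=
      lapP_nonneg (hh.posDef_chosen hx) (by rw [levi_neg]; exact h2)
    rw [lapP_neg] at h3
    rw [lap_def]
    linarith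
  · rw [gradSq_def, h1, dualIP_zero_left]

/-- space-time maximum over `{t ≤ t₀}`. -/
theorem spacetime_localMax {h : HFam V ι} (hh : IsMetric 𝓜 h) {T t₀ a : ℝ} {u : ℝ → V → ℝ}
    (hu : 𝓜.SmoothST (Set.Icc 0 T) u) (ht₀ : t₀ ∈ Set.Ioc 0 T) {x : V} (hx : x ∈ 𝓜.carrier)
    (hder : HasDerivWithinAt (fun s => u s x) a (Set.Icc 0 T) t₀)
    (hmax : ∀ᶠ p in 𝓝[Set.Icc 0 t₀ ×ˢ 𝓜.carrier] ((t₀, x) : ℝ × V), u p.1 p.2 ≤ u t₀ x) :
    0 ≤ a ∧ lap 𝓜 h (u t₀) x ≤ 0 ∧ gradSq 𝓜 h (u t₀) x = 0 := by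
  have ht₀' : t₀ ∈ Set.Icc 0 T := ⟨ht₀.1.le, ht₀.2⟩
  have hsp : ∀ᶠ y in 𝓝[𝓜.carrier] x, u t₀ y ≤ u t₀ x := by
    have ht : Filter.Tendsto (fun y : V => ((t₀, y) : ℝ × V)) (𝓝[𝓜.carrier] x)
        (𝓝[Set.Icc 0 t₀ ×ˢ 𝓜.carrier] ((t₀, x) : ℝ × V)) := by
      refine tendsto_nhdsWithin_of_tendsto_nhds_of_eventually_within _ ?_ ?_
      · have hc : Continuous fun y : V => ((t₀, y) : ℝ × V) := by fun_prop
        exact (hc.tendsto x).mono_left nhdsWithin_le_nhds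
      · filter_upwards [self_mem_nhdsWithin] with y hy
        exact ⟨⟨ht₀.1.le, le_rfl⟩, hy⟩
    exact ht.eventually hmax
  have htm : ∀ᶠ t in 𝓝[≤] t₀, u t x ≤ u t₀ x := by
    have ht : Filter.Tendsto (fun t : ℝ => ((t, x) : ℝ × V)) (𝓝[≤] t₀)
        (𝓝[Set.Icc 0 t₀ ×ˢ 𝓜.carrier] ((t₀, x) : ℝ × V)) := by
      refine tendsto_nhdsWithin_of_tendsto_nhds_of_eventually_within _ ?_ ?_
      · have hc : Continuous fun t : ℝ => ((t, x) : ℝ × V) := by fun_prop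
        exact (hc.tendsto t₀).mono_left nhdsWithin_le_nhds
      · filter_upwards [Icc_mem_nhdsLE ht₀.1] with t ht
        exact ⟨ht, hx⟩
    exact ht.eventually hmax
  have h1 : HasDerivWithinAt (fun s => u s x) a (Set.Iic t₀) t₀ :=
    hder.mono_of_mem_nhdsWithin (Icc_mem_nhdsLE_of_mem ht₀)
  exact ⟨deriv_nonneg_of_max_left h1 htm, lap_nonpos_of_localMax hh (hu.smooth ht₀') hx hsp⟩

/-! ### 2. weak maximum principle, compact superlevel sets -/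

/-- `w` smooth on `[0,T] × M`, positive superlevel sets relatively compact, `w(0) ≤ 0`, and
`w_t - Δ_{h_t} w ≤ C w` at the points where `w > 0` and `∂w = 0`.  Then `w ≤ 0`. -/
theorem maxP_compact {T C : ℝ} (hT : 0 < T) {h : ℝ → HFam V ι}
    (hh : ∀ t ∈ Set.Icc (0 : ℝ) T, IsMetric 𝓜 (h t)) {w wt : ℝ → V → ℝ}
    (hw : 𝓜.SmoothST (Set.Icc 0 T) w)
    (hder : ∀ t ∈ Set.Icc (0 : ℝ) T, ∀ x ∈ 𝓜.carrier,
      HasDerivWithinAt (fun s => w s x) (wt t x) (Set.Icc 0 T) t)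
    (hcpt : ∀ a : ℝ, 0 < a → ∃ K : Set V, IsCompact K ∧ K ⊆ 𝓜.carrier ∧
      ∀ t ∈ Set.Icc (0 : ℝ) T, ∀ x ∈ 𝓜.carrier, a ≤ w t x → x ∈ K)
    (h0 : ∀ x ∈ 𝓜.carrier, w 0 x ≤ 0)
    (hsub : ∀ t ∈ Set.Ioc (0 : ℝ) T, ∀ x ∈ 𝓜.carrier, 0 < w t x → gradSq 𝓜 (h t) (w t) x = 0 →
      wt t x - lap 𝓜 (h t) (w t) x ≤ C * w t x) :
    ∀ t ∈ Set.Icc (0 : ℝ) T, ∀ x ∈ 𝓜.carrier, w t x ≤ 0 := by
  by_contra hcon
  simp only [not_forall, not_le] at hcon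
  obtain ⟨t₁, ht₁, x₁, hx₁, hpos⟩ := hcon
  set lam : ℝ := max C 0 + 1 with hlam
  have hlam0 : 0 < lam := by have := le_max_right C 0; linarith
  have hlamC : C < lam := by have := le_max_left C 0; linarith
  set v : ℝ × V → ℝ := fun p => Real.exp (-lam * p.1) * w p.1 p.2 with hv
  set m₁ : ℝ := v (t₁, x₁) with hm₁
  have hm₁pos : 0 < m₁ := mul_pos (Real.exp_pos _) hpos
  have hexp_le : ∀ t, 0 ≤ t → Real.exp (-lam * t) ≤ 1 := fun t ht => by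
    rw [Real.exp_le_one_iff]
    nlinarith
  -- `v ≤ w` where `w ≥ 0`
  have hvw : ∀ t, 0 ≤ t → ∀ x, 0 ≤ w t x → v (t, x) ≤ w t x := fun t ht x hx => by
    have := mul_le_mul_of_nonneg_right (hexp_le t ht) hx
    rwa [one_mul] at this
  obtain ⟨K, hK, hKM, hKw⟩ := hcpt m₁ hm₁pos
  have hx₁K : x₁ ∈ K := hKw t₁ ht₁ x₁ hx₁ (hvw t₁ ht₁.1 x₁ hpos.le)
  have hcomp : IsCompact (Set.Icc (0 : ℝ) T ×ˢ K) := isCompact_Icc.prod hK
  have hvc : ContinuousOn v (Set.Icc (0 : ℝ) T ×ˢ K) := by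
    refine ContinuousOn.mul ?_ (hw.continuousOn.mono (Set.prod_mono le_rfl hKM))
    exact (Real.continuous_exp.comp (continuous_const.mul continuous_fst)).continuousOn
  obtain ⟨⟨t₀, x₀⟩, ⟨ht₀, hx₀K⟩, hmax⟩ := hcomp.exists_isMaxOn ⟨(t₁, x₁), ht₁, hx₁K⟩ hvc
  replace ht₀ : t₀ ∈ Set.Icc (0 : ℝ) T := ht₀
  replace hx₀K : x₀ ∈ K := hx₀K
  have hx₀ : x₀ ∈ 𝓜.carrier := hKM hx₀K
  have hm₀ : m₁ ≤ v (t₀, x₀) := hmax (⟨ht₁, hx₁K⟩ : (t₁, x₁) ∈ Set.Icc (0 : ℝ) T ×ˢ K)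
  -- global maximum
  have hglob : ∀ t ∈ Set.Icc (0 : ℝ) T, ∀ x ∈ 𝓜.carrier, v (t, x) ≤ v (t₀, x₀) := by
    intro t ht x hx
    by_cases hxK : x ∈ K
    · exact hmax (⟨ht, hxK⟩ : (t, x) ∈ Set.Icc (0 : ℝ) T ×ˢ K)
    · have h1 : w t x < m₁ := by
        by_contra h
        exact hxK (hKw t ht x hx (not_lt.1 h))
      rcases le_total 0 (w t x) with h2 | h2
      · exact ((hvw t ht.1 x h2).trans h1.le).trans hm₀
      · have : v (t, x) ≤ 0 := mul_nonpos_of_nonneg_of_nonpos (Real.exp_pos _).le h2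
        linarith
  have hw₀ : 0 < w t₀ x₀ := by
    have h1 : 0 < v (t₀, x₀) := lt_of_lt_of_le hm₁pos hm₀
    exact (mul_pos_iff_of_pos_left (Real.exp_pos _)).1 h1
  have ht₀pos : 0 < t₀ := by
    rcases eq_or_lt_of_le ht₀.1 with h | h
    · exfalso
      rw [← h] at hw₀
      exact absurd (h0 x₀ hx₀) (not_le.2 hw₀)
    · exact h
  have ht₀' : t₀ ∈ Set.Ioc (0 : ℝ) T := ⟨ht₀pos, ht₀.2⟩
  -- space
  have hsp : ∀ᶠ y in 𝓝[𝓜.carrier] x₀, w t₀ y ≤ w t₀ x₀ := by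
    filter_upwards [self_mem_nhdsWithin] with y hy
    exact le_of_mul_le_mul_left (hglob t₀ ht₀ y hy) (Real.exp_pos _)
  obtain ⟨hl, hg⟩ := lap_nonpos_of_localMax (hh t₀ ht₀) (hw.smooth ht₀) hx₀ hsp
  -- time
  have hd : HasDerivWithinAt (fun s => Real.exp (-lam * s) * w s x₀)
      (Real.exp (-lam * t₀) * (-lam * 1) * w t₀ x₀ + Real.exp (-lam * t₀) * wt t₀ x₀)
      (Set.Icc 0 T) t₀ :=
    (((hasDerivWithinAt_id t₀ _).const_mul (-lam)).exp).mul (hder t₀ ht₀ x₀ hx₀)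
  have hta := mp_deriv_nonneg ht₀' hd
    (fun t ht => hglob t ⟨ht.1, ht.2.trans ht₀.2⟩ x₀ hx₀)
  have hta' : 0 ≤ Real.exp (-lam * t₀) * (wt t₀ x₀ - lam * w t₀ x₀) := by
    have e : Real.exp (-lam * t₀) * (-lam * 1) * w t₀ x₀ + Real.exp (-lam * t₀) * wt t₀ x₀ =
      Real.exp (-lam * t₀) * (wt t₀ x₀ - lam * w t₀ x₀) := by ring
    rwa [e] at hta
  have hta'' : 0 ≤ wt t₀ x₀ - lam * w t₀ x₀ := nonneg_of_mul_nonneg_right hta' (Real.exp_pos _)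
  have hs := hsub t₀ ht₀' x₀ hx₀ hw₀ hg
  nlinarith

/-! ### 3. weak maximum principle with a proper barrier -/

/-- `w` bounded above, `w_t - Δ w ≤ C w` where `w > 0`; `Q ≥ 0` proper with `Q_t - Δ Q ≥ C Q`.  Then `w ≤ 0`. -/
theorem maxP_barrier {T C B : ℝ} (hT : 0 < T) {h : ℝ → HFam V ι}
    (hh : ∀ t ∈ Set.Icc (0 : ℝ) T, IsMetric 𝓜 (h t)) {w wt Q Qt : ℝ → V → ℝ}
    (hw : 𝓜.SmoothST (Set.Icc 0 T) w) (hQ : 𝓜.SmoothST (Set.Icc 0 T) Q)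
    (hder : ∀ t ∈ Set.Icc (0 : ℝ) T, ∀ x ∈ 𝓜.carrier,
      HasDerivWithinAt (fun s => w s x) (wt t x) (Set.Icc 0 T) t ∧
      HasDerivWithinAt (fun s => Q s x) (Qt t x) (Set.Icc 0 T) t)
    (hB : ∀ t ∈ Set.Icc (0 : ℝ) T, ∀ x ∈ 𝓜.carrier, w t x ≤ B)
    (hQ0 : ∀ t ∈ Set.Icc (0 : ℝ) T, ∀ x ∈ 𝓜.carrier, 0 ≤ Q t x)
    (hQp : ∀ a : ℝ, ∃ K : Set V, IsCompact K ∧ K ⊆ 𝓜.carrier ∧
      ∀ t ∈ Set.Icc (0 : ℝ) T, ∀ x ∈ 𝓜.carrier, Q t x ≤ a → x ∈ K)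
    (hQs : ∀ t ∈ Set.Ioc (0 : ℝ) T, ∀ x ∈ 𝓜.carrier, C * Q t x ≤ Qt t x - lap 𝓜 (h t) (Q t) x)
    (h0 : ∀ x ∈ 𝓜.carrier, w 0 x ≤ 0)
    (hsub : ∀ t ∈ Set.Ioc (0 : ℝ) T, ∀ x ∈ 𝓜.carrier, 0 < w t x →
      wt t x - lap 𝓜 (h t) (w t) x ≤ C * w t x) :
    ∀ t ∈ Set.Icc (0 : ℝ) T, ∀ x ∈ 𝓜.carrier, w t x ≤ 0 := by
  have key : ∀ ε : ℝ, 0 < ε → ∀ t ∈ Set.Icc (0 : ℝ) T, ∀ x ∈ 𝓜.carrier, w t x - ε * Q t x ≤ 0 := by
    intro ε hε
    refine maxP_compact (C := C) (wt := fun t x => wt t x - ε * Qt t x) hT hh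
      (hw.sub (hQ.const_mul ε))
      (fun t ht x hx => ((hder t ht x hx).1.sub ((hder t ht x hx).2.const_mul ε))) ?_ ?_ ?_
    · intro a ha
      obtain ⟨K, hK, hKM, hKQ⟩ := hQp ((B - a) / ε)
      refine ⟨K, hK, hKM, fun t ht x hx hax => hKQ t ht x hx ?_⟩
      rw [le_div_iff₀ hε]
      have := hB t ht x hx
      linarith
    · intro x hx
      have h1 := h0 x hx
      have h2 := mul_nonneg hε.le (hQ0 0 ⟨le_rfl, hT.le⟩ x hx)
      linarith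
    · intro t ht x hx hpos _
      have ht' : t ∈ Set.Icc (0 : ℝ) T := ⟨ht.1.le, ht.2⟩
      have hwpos : 0 < w t x := by
        have := mul_nonneg hε.le (hQ0 t ht' x hx)
        linarith
      have hwc := (hw.smooth ht').c2At hx
      have hQc := (hQ.smooth ht').c2At hx
      have hlap : lap 𝓜 (h t) (fun y => w t y - ε * Q t y) x =
          lap 𝓜 (h t) (w t) x - ε * lap 𝓜 (h t) (Q t) x := by
        rw [lap_sub (h t) hwc (hQc.const_mul ε), lap_const_mul (h t) ε hQc]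
      rw [hlap]
      have h1 := hsub t ht x hx hwpos
      have h2 := mul_le_mul_of_nonneg_left (hQs t ht x hx) hε.le
      nlinarith
  intro t ht x hx
  by_contra hcon
  have hpos : 0 < w t x := not_le.1 hcon
  have hQn := hQ0 t ht x hx
  have h1 := key (w t x / (2 * (Q t x + 1))) (by positivity) t ht x hx
  have h2 : w t x / (2 * (Q t x + 1)) * Q t x ≤ w t x / 2 := by
    rw [div_mul_eq_mul_div, div_le_div_iff₀ (by positivity) (by norm_num)]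
    nlinarith
  linarith

/-! ### 4. tensor maximum principle: no first touching -/

/-- positive definiteness is an open condition among Hermitian matrices, filter version. -/
theorem mp_eventually_posDef {α : Type} {l : Filter α} {F : α → Matrix ι ι ℂ} {M : Matrix ι ι ℂ}
    (hlim : ∀ j k, Filter.Tendsto (fun a => F a j k) l (𝓝 (M j k)))
    (hh : ∀ᶠ a in l, (F a).IsHermitian) (h0 : M.PosDef) : ∀ᶠ a in l, (F a).PosDef := by
  let H : (ι → ι → ℂ) → Matrix ι ι ℂ :=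
    fun N => (1 / 2 : ℂ) • ((Matrix.of N) + (Matrix.of N).conjTranspose)
  have hfix : ∀ N : Matrix ι ι ℂ, N.IsHermitian → H N = N := by
    intro N hN
    show (1 / 2 : ℂ) • (N + N.conjTranspose) = N
    rw [hN.eq, ← two_smul ℂ N, smul_smul]
    norm_num
  have hherm : ∀ N, (H N).IsHermitian := by
    intro N
    show ((1 / 2 : ℂ) • ((Matrix.of N) + (Matrix.of N).conjTranspose)).conjTranspose = _
    rw [Matrix.conjTranspose_smul, Matrix.conjTranspose_add, Matrix.conjTranspose_conjTranspose,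
      add_comm]
    congr 1
    simp
  have hcont : ∀ j k, ContinuousAt (fun N : ι → ι → ℂ => H N j k) (M : ι → ι → ℂ) := by
    intro j k
    have e : (fun N : ι → ι → ℂ => H N j k) = fun N => (1 / 2 : ℂ) * (N j k + star (N k j)) := by
      funext N
      simp [H, Matrix.add_apply, Matrix.conjTranspose_apply]
      ring
    rw [e]
    have h1 : Continuous fun N : ι → ι → ℂ => N j k :=
      (continuous_apply k).comp (continuous_apply j)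
    have h2 : Continuous fun N : ι → ι → ℂ => N k j :=
      (continuous_apply j).comp (continuous_apply k)
    exact (continuous_const.mul (h1.add (continuous_star.comp h2))).continuousAt
  have h1 : ∀ᶠ N in 𝓝 (M : ι → ι → ℂ), (H N).PosDef :=
    eventually_posDef (x := (M : ι → ι → ℂ)) (H := H) hcont
      (Filter.Eventually.of_forall hherm) (by rw [hfix M h0.isHermitian]; exact h0)
  have ht : Filter.Tendsto (fun a => (F a : ι → ι → ℂ)) l (𝓝 (M : ι → ι → ℂ)) :=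
    tendsto_pi_nhds.2 fun j => tendsto_pi_nhds.2 fun k => hlim j k
  filter_upwards [ht.eventually h1, hh] with a ha hha
  rwa [hfix (F a) hha] at ha

/-- positive definiteness at a point does not depend on the parametrisation. -/
theorem mp_posDef_of_chart {A : HFam V ι} (hA : IsHForm 𝓜 A) {Φ Ψ : CE ι → V}
    {U W : Set (CE ι)} (hΦ : 𝓜.IsHol Φ U) (hΨ : 𝓜.IsHol Ψ W) {z w : CE ι} (hz : z ∈ U)
    (hw : w ∈ W) (h : Φ z = Ψ w) (hp : (A Ψ w).PosDef) : (A Φ z).PosDef := by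
  have hz' : z ∈ U ∩ Φ ⁻¹' (Ψ '' W) := ⟨hz, ⟨w, hw, h.symm⟩⟩
  rw [hA.compat_trans hΦ hΨ hz', CMfd.trans_eq hΦ hΨ hw h]
  exact (posDef_conj_iff (CMfd.det_jac_trans_ne_zero hΦ hΨ hz')).2 hp

/-- positive definiteness is open in space-time. -/
theorem mp_eventually_posDef_chart {T : ℝ} {E : ℝ → HFam V ι}
    (hE : ∀ t ∈ Set.Icc (0 : ℝ) T, IsHForm 𝓜 (E t))
    (hEc : ∀ (Φ : CE ι → V) (U : Set (CE ι)), 𝓜.IsHol Φ U → ∀ j k,
      ContinuousOn (fun q : ℝ × CE ι => E q.1 Φ q.2 j k) (Set.Icc 0 T ×ˢ U))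
    {t : ℝ} (ht : t ∈ Set.Icc (0 : ℝ) T) {Φ : CE ι → V} {U : Set (CE ι)} (hΦ : 𝓜.IsHol Φ U)
    {z : CE ι} (hz : z ∈ U) (hp : (E t Φ z).PosDef) :
    ∀ᶠ p in 𝓝[Set.Icc (0 : ℝ) T ×ˢ 𝓜.carrier] ((t, Φ z) : ℝ × V),
      ∀ (Ψ : CE ι → V) (W : Set (CE ι)), 𝓜.IsHol Ψ W → ∀ w ∈ W, Ψ w = p.2 →
        (E p.1 Ψ w).PosDef := by
  have h2 : 𝓝[Set.Icc (0 : ℝ) T ×ˢ 𝓜.carrier] (t, Φ z) =
      Filter.map (fun q : ℝ × CE ι => (q.1, Φ q.2)) (𝓝[Set.Icc (0 : ℝ) T ×ˢ U] (t, z)) := by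
    rw [nhdsWithin_prod_eq, nhdsWithin_prod_eq, ← (𝓜.isParam hΦ).map_nhds_eq hz,
      (CMfd.isOpen_dom hΦ).nhdsWithin_eq hz]
    have := @Filter.prod_map_map_eq _ _ _ _ (𝓝[Set.Icc (0 : ℝ) T] t) (𝓝 z) (fun s : ℝ => s) Φ
    rw [Filter.map_id'] at this
    exact this
  rw [h2, Filter.eventually_map]
  have h3 : ∀ᶠ q in 𝓝[Set.Icc (0 : ℝ) T ×ˢ U] ((t, z) : ℝ × CE ι), (E q.1 Φ q.2).PosDef :=
    mp_eventually_posDef (F := fun q : ℝ × CE ι => E q.1 Φ q.2)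
      (fun j k => hEc Φ U hΦ j k (t, z) ⟨ht, hz⟩)
      (by
        filter_upwards [self_mem_nhdsWithin] with q hq
        exact (hE q.1 hq.1).herm hΦ q.2 hq.2) hp
  filter_upwards [h3, self_mem_nhdsWithin] with q hq hqm Ψ W hΨ w hw hwq
  exact mp_posDef_of_chart (hE q.1 hqm.1) hΨ hΦ hw hqm.2 hwq hq

theorem mp_tensor_core {T : ℝ} {E : ℝ → HFam V ι}
    (hE : ∀ t ∈ Set.Icc (0 : ℝ) T, IsHForm 𝓜 (E t))
    (hEc : ∀ (Φ : CE ι → V) (U : Set (CE ι)), 𝓜.IsHol Φ U → ∀ j k,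
      ContinuousOn (fun q : ℝ × CE ι => E q.1 Φ q.2 j k) (Set.Icc 0 T ×ˢ U))
    (h0 : ∀ (Φ : CE ι → V) (U : Set (CE ι)), 𝓜.IsHol Φ U → ∀ z ∈ U, (E 0 Φ z).PosDef)
    (hcpt : ∃ K : Set V, IsCompact K ∧ K ⊆ 𝓜.carrier ∧ ∀ t ∈ Set.Icc (0 : ℝ) T,
      ∀ (Φ : CE ι → V) (U : Set (CE ι)), 𝓜.IsHol Φ U → ∀ z ∈ U, Φ z ∉ K → (E t Φ z).PosDef)
    (htouch : ∀ t₀ ∈ Set.Ioc (0 : ℝ) T, (∀ t ∈ Set.Icc (0 : ℝ) t₀,
        ∀ (Φ : CE ι → V) (U : Set (CE ι)), 𝓜.IsHol Φ U → ∀ z ∈ U, (E t Φ z).PosSemidef) →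
      ∀ (Φ : CE ι → V) (U : Set (CE ι)), 𝓜.IsHol Φ U → ∀ z ∈ U, ∀ v : ι → ℂ, v ≠ 0 →
        qf (E t₀ Φ z) v = 0 → False) :
    ∀ t ∈ Set.Icc (0 : ℝ) T, ∀ (Φ : CE ι → V) (U : Set (CE ι)), 𝓜.IsHol Φ U → ∀ z ∈ U,
      (E t Φ z).PosDef := by
  obtain ⟨K, hK, hKM, hKout⟩ := hcpt
  set G : Set ℝ := {t | ∀ s ∈ Set.Icc (0 : ℝ) t, ∀ (Φ : CE ι → V) (U : Set (CE ι)), 𝓜.IsHol Φ U →
    ∀ z ∈ U, (E s Φ z).PosDef} with hG
  have hmain : Set.Icc (0 : ℝ) T ⊆ G := by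
    refine IsClosed.Icc_subset_of_forall_exists_gt ?_ ?_ ?_
    · -- closedness
      rw [isClosed_iff_nhds]
      intro t htcl
      have htI : t ∈ Set.Icc (0 : ℝ) T := by
        have : t ∈ closure (Set.Icc (0 : ℝ) T) := by
          rw [mem_closure_iff_nhds]
          intro O hO
          obtain ⟨s, hs1, hs2⟩ := htcl O hO
          exact ⟨s, hs1, hs2.2⟩
        rwa [isClosed_Icc.closure_eq] at this
      refine ⟨?_, htI⟩
      have c1 : ∀ s ∈ Set.Ico (0 : ℝ) t, ∀ (Φ : CE ι → V) (U : Set (CE ι)), 𝓜.IsHol Φ U →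
          ∀ z ∈ U, (E s Φ z).PosDef := by
        intro s hs
        obtain ⟨t', ht'1, ht'2⟩ := htcl (Set.Ioi s) (Ioi_mem_nhds hs.2)
        exact ht'2.1 s ⟨hs.1, (Set.mem_Ioi.1 ht'1).le⟩
      have c2 : ∀ (Φ : CE ι → V) (U : Set (CE ι)), 𝓜.IsHol Φ U → ∀ z ∈ U, (E t Φ z).PosDef := by
        rcases eq_or_lt_of_le htI.1 with h | hpos
        · rw [← h]
          exact h0
        · have hps : ∀ (Φ : CE ι → V) (U : Set (CE ι)), 𝓜.IsHol Φ U → ∀ z ∈ U,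
              (E t Φ z).PosSemidef := by
            intro Φ U hΦ z hz
            have hne : (𝓝[<] t).NeBot := inferInstance
            refine posSemidef_of_tendsto (l := 𝓝[<] t) (F := fun s => E s Φ z) ?_ ?_
            · filter_upwards [Ioo_mem_nhdsLT hpos] with s hs
              exact (c1 s ⟨hs.1.le, hs.2⟩ Φ U hΦ z hz).posSemidef
            · intro j k
              have hc : ContinuousWithinAt (fun q : ℝ × CE ι => E q.1 Φ q.2 j k)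
                  (Set.Icc 0 T ×ˢ U) (t, z) := hEc Φ U hΦ j k (t, z) ⟨htI, hz⟩
              have htend : Filter.Tendsto (fun s : ℝ => ((s, z) : ℝ × CE ι)) (𝓝[<] t)
                  (𝓝[Set.Icc (0 : ℝ) T ×ˢ U] ((t, z) : ℝ × CE ι)) := by
                refine tendsto_nhdsWithin_of_tendsto_nhds_of_eventually_within _ ?_ ?_
                · have hcc : Continuous fun s : ℝ => ((s, z) : ℝ × CE ι) := by fun_prop
                  exact (hcc.tendsto t).mono_left nhdsWithin_le_nhds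
                · filter_upwards [Ioo_mem_nhdsLT hpos] with s hs
                  exact ⟨⟨hs.1.le, hs.2.le.trans htI.2⟩, hz⟩
              exact hc.tendsto.comp htend
          have hall : ∀ s ∈ Set.Icc (0 : ℝ) t, ∀ (Φ : CE ι → V) (U : Set (CE ι)), 𝓜.IsHol Φ U →
              ∀ z ∈ U, (E s Φ z).PosSemidef := by
            intro s hs Φ U hΦ z hz
            rcases eq_or_lt_of_le hs.2 with h | h
            · rw [h]
              exact hps Φ U hΦ z hz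
            · exact (c1 s ⟨hs.1, h⟩ Φ U hΦ z hz).posSemidef
          intro Φ U hΦ z hz
          rw [posDef_iff_qf ((hE t htI).herm hΦ z hz)]
          intro v hv
          refine lt_of_le_of_ne (qf_nonneg (hps Φ U hΦ z hz) v) fun h => ?_
          exact htouch t ⟨hpos, htI.2⟩ hall Φ U hΦ z hz v hv h.symm
      intro s hs
      rcases eq_or_lt_of_le hs.2 with h | h
      · rw [h]
        exact c2
      · exact c1 s ⟨hs.1, h⟩
    · -- start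
      intro s hs
      have : s = 0 := le_antisymm hs.2 hs.1
      rw [this]
      exact h0
    · -- openness to the right
      rintro t ⟨htG, htI⟩ y hy
      have htI' : t ∈ Set.Icc (0 : ℝ) T := ⟨htI.1, htI.2.le⟩
      have htube : ∀ᶠ s in 𝓝 t, ∀ x ∈ K, s ∈ Set.Icc (0 : ℝ) T →
          ∀ (Ψ : CE ι → V) (W : Set (CE ι)), 𝓜.IsHol Ψ W → ∀ w ∈ W, Ψ w = x →
            (E s Ψ w).PosDef := by
        refine hK.eventually_forall_of_forall_eventually (P := fun s x => s ∈ Set.Icc (0 : ℝ) T →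
          ∀ (Ψ : CE ι → V) (W : Set (CE ι)), 𝓜.IsHol Ψ W → ∀ w ∈ W, Ψ w = x →
            (E s Ψ w).PosDef) fun x hx => ?_
        have hxM := hKM hx
        have h1 := mp_eventually_posDef_chart hE hEc htI' (CMfd.isHol_pΦ 𝓜 hxM)
          (CMfd.co_mem 𝓜 hxM)
          (htG t ⟨htI.1, le_rfl⟩ _ _ (CMfd.isHol_pΦ 𝓜 hxM) _ (CMfd.co_mem 𝓜 hxM))
        rw [CMfd.pΦ_co 𝓜 hxM, eventually_nhdsWithin_iff] at h1
        filter_upwards [h1] with p hp hp1 Ψ W hΨ w hw hwx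
        exact hp ⟨hp1, hwx ▸ CMfd.mem_carrier hΨ hw⟩ Ψ W hΨ w hw hwx
      obtain ⟨δ, hδ, hball⟩ := Metric.eventually_nhds_iff.1 htube
      refine ⟨min (t + δ / 2) (min y T), ?_, ?_, ?_⟩
      · intro s hs Φ U hΦ z hz
        rcases le_or_gt s t with hst | hst
        · exact htG s ⟨hs.1, hst⟩ Φ U hΦ z hz
        · have hs1 : s ≤ t + δ / 2 := hs.2.trans (min_le_left _ _)
          have hs2 : s ≤ T := hs.2.trans ((min_le_right _ _).trans (min_le_right _ _))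
          by_cases hzK : Φ z ∈ K
          · refine hball (y := s) ?_ (Φ z) hzK ⟨hs.1, hs2⟩ Φ U hΦ z hz rfl
            rw [Real.dist_eq, abs_of_pos (by linarith)]
            linarith
          · exact hKout s ⟨hs.1, hs2⟩ Φ U hΦ z hz hzK
      · exact lt_min (by linarith) (lt_min hy htI.2)
      · exact (min_le_right _ _).trans (min_le_left _ _)
  intro t ht
  exact hmain ht t ⟨ht.1, le_rfl⟩

/-- `A_t < B_t` at `t = 0` and outside a compact set; if there is no FIRST touching point, then `A_t < B_t` on `[0,T]`. -/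
theorem tensor_maxP {T : ℝ} (hT : 0 < T) {A B : ℝ → HFam V ι}
    (hA : ∀ t ∈ Set.Icc (0 : ℝ) T, IsHForm 𝓜 (A t)) (hB : ∀ t ∈ Set.Icc (0 : ℝ) T, IsHForm 𝓜 (B t))
    (hAc : ∀ (Φ : CE ι → V) (U : Set (CE ι)), 𝓜.IsHol Φ U → ∀ j k,
      ContinuousOn (fun q : ℝ × CE ι => A q.1 Φ q.2 j k) (Set.Icc 0 T ×ˢ U))
    (hBc : ∀ (Φ : CE ι → V) (U : Set (CE ι)), 𝓜.IsHol Φ U → ∀ j k,
      ContinuousOn (fun q : ℝ × CE ι => B q.1 Φ q.2 j k) (Set.Icc 0 T ×ˢ U))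
    (h0 : ∀ (Φ : CE ι → V) (U : Set (CE ι)), 𝓜.IsHol Φ U → ∀ z ∈ U, (B 0 Φ z - A 0 Φ z).PosDef)
    (hcpt : ∃ K : Set V, IsCompact K ∧ K ⊆ 𝓜.carrier ∧ ∀ t ∈ Set.Icc (0 : ℝ) T,
      ∀ (Φ : CE ι → V) (U : Set (CE ι)), 𝓜.IsHol Φ U → ∀ z ∈ U, Φ z ∉ K → (B t Φ z - A t Φ z).PosDef)
    (htouch : ∀ t₀ ∈ Set.Ioc (0 : ℝ) T, (∀ t ∈ Set.Icc (0 : ℝ) t₀, leF 𝓜 (A t) (B t)) →
      ∀ (Φ : CE ι → V) (U : Set (CE ι)), 𝓜.IsHol Φ U → ∀ z ∈ U, ∀ v : ι → ℂ, v ≠ 0 →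
        qf (B t₀ Φ z - A t₀ Φ z) v = 0 → False) :
    ∀ t ∈ Set.Icc (0 : ℝ) T, ∀ (Φ : CE ι → V) (U : Set (CE ι)), 𝓜.IsHol Φ U → ∀ z ∈ U,
      (B t Φ z - A t Φ z).PosDef := by
  exact mp_tensor_core (E := fun t Φ z => B t Φ z - A t Φ z)
    (fun t ht => (hB t ht).sub (hA t ht))
    (fun Φ U hΦ j k => (hBc Φ U hΦ j k).sub (hAc Φ U hΦ j k)) h0 hcpt htouch

/-- the calculus at a first touching point, for a CONSTANT coordinate vector `v`: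
`F(t,y) = qf (B_t - A_t)(y) v ≥ 0` for `t ≤ t₀`, `F(t₀,z) = 0`. -/
theorem touching_calculus {T t₀ a : ℝ} (ht₀ : t₀ ∈ Set.Ioc (0 : ℝ) T) {E : ℝ → HFam V ι}
    (hE : ∀ t ∈ Set.Icc (0 : ℝ) t₀, leF 𝓜 (fun _ _ => 0) (E t)) {Φ : CE ι → V} {U : Set (CE ι)}
    (hΦ : 𝓜.IsHol Φ U) {z : CE ι} (hz : z ∈ U) {v : ι → ℂ} (h0 : qf (E t₀ Φ z) v = 0)
    (hsm : ContDiffAt ℝ 2 (fun y => qf (E t₀ Φ y) v) z)
    (hder : HasDerivWithinAt (fun s => qf (E s Φ z) v) a (Set.Icc 0 T) t₀) :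
    a ≤ 0 ∧ grad10 (fun y => qf (E t₀ Φ y) v) z = 0 ∧ (levi (fun y => qf (E t₀ Φ y) v) z).PosSemidef ∧
      (E t₀ Φ z).mulVec v = 0 := by
  have ht₀' : t₀ ∈ Set.Icc (0 : ℝ) t₀ := ⟨ht₀.1.le, le_rfl⟩
  have hps : ∀ t ∈ Set.Icc (0 : ℝ) t₀, ∀ y ∈ U, (E t Φ y).PosSemidef := fun t ht y hy => by
    have := hE t ht Φ U hΦ y hy
    rwa [sub_zero] at this
  have hmin : IsLocalMin (fun y => qf (E t₀ Φ y) v) z := by
    filter_upwards [(CMfd.isOpen_dom hΦ).mem_nhds hz] with y hy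
    rw [h0]
    exact qf_nonneg (hps t₀ ht₀' y hy) v
  refine ⟨?_, grad10_eq_zero_of_isLocalMin hmin, levi_posSemidef_of_isLocalMin hsm hmin,
    (qf_eq_zero_iff (hps t₀ ht₀' z hz) v).1 h0⟩
  have h1 := mp_deriv_nonneg (φ := fun s => - qf (E s Φ z) v) ht₀ hder.neg (fun t ht => by
    show - qf (E t Φ z) v ≤ - qf (E t₀ Φ z) v
    rw [h0]
    have := qf_nonneg (hps t ht z hz) v
    linarith)
  linarith

end Claimed.Agent.R316
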