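import Claimed.Agent.R316.Pack003
import Claimed.Agent.R316.Pack004
import Claimed.Agent.R316.Pack011
import Claimed.Agent.R316.CW.Integral

/-!
# Row 316, CM-4: Kaehler normal coordinates

STATEMENT FILE (captain helper258), PROVED by helper141 (leaf CM-4, complete);
statements and names are frozen.  Consumers: S3-A4, G9 (Bochner), G10, G11, S7-1a, B9.

CONSTRUCTION.  Start from a centred parametrisation (`CMfd.exists_centred`).  (1) linear change `z = T z'` with `Tᴴ H(0) T = 1` (`exists_sqrt_posDef`,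
CW/MatAlg) followed by a unitary diagonalising the second form (`exists_unitary_diag`): `CMfd.isHol_linear`.  (2) quadratic change
`z_k = z'_k - ½ ∑_{l,m} c^k_{lm} z'_l z'_m`, `c^k_{lm} = ∂_l h_{m \bar k}(0)` (symmetric in `l,m` by closedness): injective with injective derivative on a
small ball (holomorphic inverse function theorem, `HasStrictFDerivAt.toOpenPartialHomeomorph` over `ℂ`, or `ApproximatesLinearOn`), `CMfd.reparam`;
transformation law `IsHForm.compat`.  (3) cubic change for `IsNormal2At`.  The derivative of the change of coordinates at `0` is the identity, so (1) is preserved.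
-/

set_option autoImplicit false
set_option linter.unusedSectionVars false
open scoped ContDiff ComplexOrder Topology

namespace Claimed.Agent.R316

variable {V : Type} [NormedAddCommGroup V] [NormedSpace ℝ V] [FiniteDimensional ℝ V]
variable {ι : Type} [Fintype ι] [DecidableEq ι]
variable {𝓜 : CMfd V ι}

/-- `Φ` is a normal parametrisation for `h` at `Φ 0`: `h = 1 + O(|z|²)`. -/
structure IsNormalAt (h : HFam V ι) (Φ : CE ι → V) : Prop where
  one : h Φ 0 = 1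
  dz0 : ∀ j k l, dz l (fun y => h Φ y j k) 0 = 0
  dzb0 : ∀ j k l, dzb l (fun y => h Φ y j k) 0 = 0

/-- second order normalisation: moreover the pure second derivatives vanish. -/
structure IsNormal2At (h : HFam V ι) (Φ : CE ι → V) : Prop extends IsNormalAt h Φ where
  dzdz0 : ∀ j k l m, dz m (fun w => dz l (fun y => h Φ y j k) w) 0 = 0
  dzbdzb0 : ∀ j k l m, dzb m (fun w => dzb l (fun y => h Φ y j k) w) 0 = 0

/-! ### holomorphic changes of the parametrisation -/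

section change

variable {Φ : CE ι → V} {U U' : Set (CE ι)} {τ : CE ι → CE ι} {z : CE ι}

theorem nc_fderiv_injective (h : (jac τ z).det ≠ 0) : Function.Injective (fderiv ℂ τ z) := by
  rw [injective_iff_map_eq_zero]
  intro v hv
  have h1 : (jac τ z).mulVec (fun j => v j) = 0 := by
    funext k
    rw [jac_mulVec, hv]
    rfl
  have h2 := Matrix.eq_zero_of_mulVec_eq_zero h h1
  ext j
  exact congrFun h2 j

theorem nc_continuous_jac (hτ : ContDiff ℂ ∞ τ) (a b : ι) : Continuous fun w => jac τ w a b := by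
  have h1 : Continuous fun w => fderiv ℂ τ w (eb b) :=
    (hτ.continuous_fderiv (by simp)).clm_apply continuous_const
  exact (EuclideanSpace.proj a : CE ι →L[ℂ] ℂ).continuous.comp h1

theorem nc_continuous_det_jac (hτ : ContDiff ℂ ∞ τ) : Continuous fun w => (jac τ w).det := by
  simp only [Matrix.det_apply]
  refine continuous_finsetSum _ fun σ _ => Continuous.const_smul ?_ _
  exact continuous_finsetProd _ fun i _ => nc_continuous_jac hτ _ _

/-- a holomorphic map with invertible Jacobian at `0` gives a new parametrisation near `0`. -/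
theorem nc_change (hΦ : 𝓜.IsHol Φ U) (hτ : ContDiff ℂ ∞ τ) (hτ0 : τ 0 ∈ U)
    (hJ : (jac τ 0).det ≠ 0) :
    ∃ U' : Set (CE ι), 𝓜.IsHol (Φ ∘ τ) U' ∧ (0 : CE ι) ∈ U' ∧ Set.MapsTo τ U' U := by
  have hdet : (fderiv ℂ τ 0).det ≠ 0 := by rwa [det_fderiv_eq_det_jac]
  have hf' : HasFDerivAt τ
      (((fderiv ℂ τ 0).toContinuousLinearEquivOfDetNeZero hdet : CE ι ≃L[ℂ] CE ι) :
        CE ι →L[ℂ] CE ι) 0 := by
    rw [ContinuousLinearMap.coe_toContinuousLinearEquivOfDetNeZero]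
    exact (hτ.differentiable (by simp) 0).hasFDerivAt
  set e := hτ.contDiffAt.toOpenPartialHomeomorph τ hf' (by simp) with he
  have hopen : IsOpen (e.source ∩ τ ⁻¹' U ∩ {w | (jac τ w).det ≠ 0}) :=
    (e.open_source.inter ((CMfd.isOpen_dom hΦ).preimage hτ.continuous)).inter
      (isOpen_ne_fun (nc_continuous_det_jac hτ) continuous_const)
  refine ⟨e.source ∩ τ ⁻¹' U ∩ {w | (jac τ w).det ≠ 0}, ?_,
    ⟨⟨hτ.contDiffAt.mem_toOpenPartialHomeomorph_source hf' (by simp), hτ0⟩, hJ⟩,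
    fun w hw => hw.1.2⟩
  refine 𝓜.reparam hΦ τ _ hopen (hτ.differentiable (by simp)).differentiableOn ?_ ?_
    (fun w hw => hw.1.2)
  · exact e.injOn.mono fun w hw => hw.1.1
  · exact fun w hw => nc_fderiv_injective hw.2

theorem nc_trans_eventuallyEq (hΦ : 𝓜.IsHol Φ U) (hΦ' : 𝓜.IsHol (Φ ∘ τ) U')
    (hm : Set.MapsTo τ U' U) (hz : z ∈ U') : Function.invFunOn Φ U ∘ (Φ ∘ τ) =ᶠ[𝓝 z] τ := by
  filter_upwards [(CMfd.isOpen_dom hΦ').mem_nhds hz] with w hw
  exact (𝓜.isParam hΦ).leftInv (hm hw)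

theorem nc_jac_trans (hΦ : 𝓜.IsHol Φ U) (hΦ' : 𝓜.IsHol (Φ ∘ τ) U')
    (hm : Set.MapsTo τ U' U) (hz : z ∈ U') : jac (Function.invFunOn Φ U ∘ (Φ ∘ τ)) z = jac τ z :=
  jac_congr (nc_trans_eventuallyEq hΦ hΦ' hm hz)

/-- transformation law under an explicit change of the parametrisation. -/
theorem IsHForm.comp_eq {A : HFam V ι} (hA : IsHForm 𝓜 A) (hΦ : 𝓜.IsHol Φ U)
    (hΦ' : 𝓜.IsHol (Φ ∘ τ) U') (hm : Set.MapsTo τ U' U) (hz : z ∈ U') :
    A (Φ ∘ τ) z = (jac τ z).conjTranspose * A Φ (τ z) * jac τ z := by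
  have hz' : z ∈ U' ∩ (Φ ∘ τ) ⁻¹' (Φ '' U) := ⟨hz, ⟨τ z, hm hz, rfl⟩⟩
  rw [hA.compat_trans hΦ' hΦ hz', nc_jac_trans hΦ hΦ' hm hz,
    (nc_trans_eventuallyEq hΦ hΦ' hm hz).eq_of_nhds]

end change

/-! ### polynomial maps -/

section poly

theorem nc_contDiff_coord (m : ι) : ContDiff ℂ ∞ (fun w : CE ι => w m) :=
  (EuclideanSpace.proj m : CE ι →L[ℂ] ℂ).contDiff

theorem nc_contDiff_lin (a : ι → ℂ) : ContDiff ℂ ∞ (fun w : CE ι => ∑ m, a m * w m) :=
  ContDiff.sum fun m _ => contDiff_const.mul (nc_contDiff_coord m)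

theorem nc_contDiff_quad (a : ι → ι → ℂ) :
    ContDiff ℂ ∞ (fun w : CE ι => ∑ m, ∑ n, a m n * w m * w n) :=
  ContDiff.sum fun m _ => ContDiff.sum fun n _ =>
    (contDiff_const.mul (nc_contDiff_coord m)).mul (nc_contDiff_coord n)

theorem nc_contDiff_cub (a : ι → ι → ι → ℂ) :
    ContDiff ℂ ∞ (fun w : CE ι => ∑ l, ∑ m, ∑ n, a l m n * w l * w m * w n) :=
  ContDiff.sum fun l _ => ContDiff.sum fun m _ => ContDiff.sum fun n _ =>
    ((contDiff_const.mul (nc_contDiff_coord l)).mul (nc_contDiff_coord m)).mul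
      (nc_contDiff_coord n)

theorem nc_diffR {p : CE ι → ℂ} (hp : ContDiff ℂ ∞ p) (z : CE ι) : DifferentiableAt ℝ p z :=
  ((hp.differentiable (by simp)) z).restrictScalars ℝ

theorem nc_dz_lin (a : ι → ℂ) (j : ι) (z : CE ι) :
    dz j (fun w : CE ι => ∑ m, a m * w m) z = a j := by
  rw [dz_sum Finset.univ (fun m (w : CE ι) => a m * w m)
    (fun m _ => nc_diffR (contDiff_const.mul (nc_contDiff_coord m)) z)]
  have e : ∀ m, dz j (fun w : CE ι => a m * w m) z = if j = m then a m else 0 := by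
    intro m
    rw [dz_const_mul _ differentiableAt_coord, dz_coord]
    split_ifs <;> simp
  simp only [e, Finset.sum_ite_eq, Finset.mem_univ, if_true]

theorem nc_dz_quad (a : ι → ι → ℂ) (j : ι) (z : CE ι) :
    dz j (fun w : CE ι => ∑ m, ∑ n, a m n * w m * w n) z = ∑ n, (a j n + a n j) * z n := by
  have e0 : (fun w : CE ι => ∑ m, ∑ n, a m n * w m * w n) =
      fun w => ∑ m, w m * ∑ n, a m n * w n := by
    funext w
    refine Finset.sum_congr rfl fun m _ => ?_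
    rw [Finset.mul_sum]
    exact Finset.sum_congr rfl fun n _ => by ring
  rw [e0, dz_sum Finset.univ (fun m (w : CE ι) => w m * ∑ n, a m n * w n)
    (fun m _ => nc_diffR ((nc_contDiff_coord m).mul (nc_contDiff_lin (a m))) z)]
  have e : ∀ m, dz j (fun w : CE ι => w m * ∑ n, a m n * w n) z =
      (if j = m then ∑ n, a m n * z n else 0) + z m * a m j := by
    intro m
    rw [dz_mul differentiableAt_coord (nc_diffR (nc_contDiff_lin (a m)) z), dz_coord, nc_dz_lin]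
    split_ifs <;> simp
  simp only [e, Finset.sum_add_distrib, Finset.sum_ite_eq, Finset.mem_univ, if_true]
  rw [← Finset.sum_add_distrib]
  exact Finset.sum_congr rfl fun n _ => by ring

theorem nc_dz_cub (a : ι → ι → ι → ℂ) (j : ι) (z : CE ι) :
    dz j (fun w : CE ι => ∑ l, ∑ m, ∑ n, a l m n * w l * w m * w n) z =
      ∑ m, ∑ n, (a j m n + a m j n + a m n j) * z m * z n := by
  have e0 : (fun w : CE ι => ∑ l, ∑ m, ∑ n, a l m n * w l * w m * w n) =
      fun w => ∑ l, w l * ∑ m, ∑ n, a l m n * w m * w n := by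
    funext w
    refine Finset.sum_congr rfl fun l _ => ?_
    rw [Finset.mul_sum]
    refine Finset.sum_congr rfl fun m _ => ?_
    rw [Finset.mul_sum]
    exact Finset.sum_congr rfl fun n _ => by ring
  rw [e0, dz_sum Finset.univ (fun l (w : CE ι) => w l * ∑ m, ∑ n, a l m n * w m * w n)
    (fun l _ => nc_diffR ((nc_contDiff_coord l).mul (nc_contDiff_quad (a l))) z)]
  have e : ∀ l, dz j (fun w : CE ι => w l * ∑ m, ∑ n, a l m n * w m * w n) z =
      (if j = l then ∑ m, ∑ n, a l m n * z m * z n else 0) +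
        z l * ∑ n, (a l j n + a l n j) * z n := by
    intro l
    rw [dz_mul differentiableAt_coord (nc_diffR (nc_contDiff_quad (a l)) z), dz_coord, nc_dz_quad]
    split_ifs <;> simp
  simp only [e, Finset.sum_add_distrib, Finset.sum_ite_eq, Finset.mem_univ, if_true]
  rw [← Finset.sum_add_distrib]
  refine Finset.sum_congr rfl fun m _ => ?_
  rw [Finset.mul_sum, ← Finset.sum_add_distrib]
  exact Finset.sum_congr rfl fun n _ => by ring

end poly

/-! ### the polynomial change of coordinates -/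

section ncmap

/-- the polynomial map `w ↦ a + T w - ½ c(w,w) - (1/6) d(w,w,w)`. -/
noncomputable def ncMap (a : CE ι) (T : Matrix ι ι ℂ) (c : ι → ι → ι → ℂ)
    (d : ι → ι → ι → ι → ℂ) : CE ι → CE ι :=
  fun w => WithLp.toLp 2 fun b => a b + ∑ m, T b m * w m
    - (1 / 2 : ℂ) * ∑ l, ∑ m, c b l m * w l * w m
    - (1 / 6 : ℂ) * ∑ l, ∑ m, ∑ n, d b l m n * w l * w m * w n

variable (a : CE ι) (T : Matrix ι ι ℂ) (c : ι → ι → ι → ℂ) (d : ι → ι → ι → ι → ℂ)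

theorem ncMap_apply (w : CE ι) (b : ι) : ncMap a T c d w b = a b + ∑ m, T b m * w m
    - (1 / 2 : ℂ) * ∑ l, ∑ m, c b l m * w l * w m
    - (1 / 6 : ℂ) * ∑ l, ∑ m, ∑ n, d b l m n * w l * w m * w n := rfl

theorem ncMap_contDiff : ContDiff ℂ ∞ (ncMap a T c d) := by
  rw [contDiff_euclidean]
  intro b
  simp only [ncMap_apply]
  exact ((contDiff_const.add (nc_contDiff_lin (T b))).sub
    (contDiff_const.mul (nc_contDiff_quad (c b)))).sub (contDiff_const.mul (nc_contDiff_cub (d b)))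

theorem ncMap_zero : ncMap a T c d 0 = a := by
  ext b
  simp [ncMap_apply]

theorem ncMap_jac (w : CE ι) (b k : ι) : jac (ncMap a T c d) w b k = T b k
    - (1 / 2 : ℂ) * ∑ n, (c b k n + c b n k) * w n
    - (1 / 6 : ℂ) * ∑ m, ∑ n, (d b k m n + d b m k n + d b m n k) * w m * w n := by
  rw [jac_apply_eq_dz _ ((ncMap_contDiff a T c d).differentiable (by simp) w)]
  simp only [ncMap_apply]
  have h1 := nc_diffR (nc_contDiff_lin (T b)) w
  have h2 := nc_diffR (contDiff_const (c := (1 / 2 : ℂ)).mul (nc_contDiff_quad (c b))) w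
  have h3 := nc_diffR (contDiff_const (c := (1 / 6 : ℂ)).mul (nc_contDiff_cub (d b))) w
  have h0 : DifferentiableAt ℝ (fun _ : CE ι => a b) w := differentiableAt_const _
  rw [dz_sub ((h0.fun_add h1).fun_sub h2) h3, dz_sub (h0.fun_add h1) h2, dz_add h0 h1, dz_const,
    nc_dz_lin, dz_const_mul _ (nc_diffR (nc_contDiff_quad (c b)) w), nc_dz_quad,
    dz_const_mul _ (nc_diffR (nc_contDiff_cub (d b)) w), nc_dz_cub, zero_add]

theorem ncMap_jac_zero : jac (ncMap a T c d) 0 = T := by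
  ext b k
  rw [ncMap_jac]
  simp

theorem ncMap_contDiff_jac (b k : ι) : ContDiff ℂ ∞ (fun w => jac (ncMap a T c d) w b k) := by
  simp only [ncMap_jac]
  exact (contDiff_const.sub (contDiff_const.mul (nc_contDiff_lin _))).sub
    (contDiff_const.mul (nc_contDiff_quad _))

theorem ncMap_dz_jac (w : CE ι) (b k l : ι) :
    dz l (fun y => jac (ncMap a T c d) y b k) w = - (1 / 2 : ℂ) * (c b k l + c b l k)
      - (1 / 6 : ℂ) * ∑ n, ((d b k l n + d b l k n + d b l n k)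
        + (d b k n l + d b n k l + d b n l k)) * w n := by
  simp only [ncMap_jac]
  have h0 : DifferentiableAt ℝ (fun _ : CE ι => T b k) w := differentiableAt_const _
  have h1 := nc_diffR (contDiff_const (c := (1 / 2 : ℂ)).mul
    (nc_contDiff_lin (fun n => c b k n + c b n k))) w
  have h2 := nc_diffR (contDiff_const (c := (1 / 6 : ℂ)).mul
    (nc_contDiff_quad (fun m n => d b k m n + d b m k n + d b m n k))) w
  rw [dz_sub (h0.fun_sub h1) h2, dz_sub h0 h1, dz_const,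
    dz_const_mul _ (nc_diffR (nc_contDiff_lin (fun n => c b k n + c b n k)) w), nc_dz_lin,
    dz_const_mul _ (nc_diffR
      (nc_contDiff_quad (fun m n => d b k m n + d b m k n + d b m n k)) w), nc_dz_quad]
  ring

theorem ncMap_dz_dz_jac (w : CE ι) (b k l m : ι) :
    dz m (fun x => dz l (fun y => jac (ncMap a T c d) y b k) x) w =
      - (1 / 6 : ℂ) * ((d b k l m + d b l k m + d b l m k)
        + (d b k m l + d b m k l + d b m l k)) := by
  simp only [ncMap_dz_jac]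
  have h0 : DifferentiableAt ℝ (fun _ : CE ι => - (1 / 2 : ℂ) * (c b k l + c b l k)) w :=
    differentiableAt_const _
  have h1 := nc_diffR (contDiff_const (c := (1 / 6 : ℂ)).mul
    (nc_contDiff_lin (fun n => (d b k l n + d b l k n + d b l n k)
        + (d b k n l + d b n k l + d b n l k)))) w
  rw [dz_sub h0 h1, dz_const, dz_const_mul _ (nc_diffR (nc_contDiff_lin _) w), nc_dz_lin]
  ring

end ncmap

/-! ### pure holomorphic derivatives of `Jᴴ G J` and of `H ∘ τ` -/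

section deriv

open scoped Matrix ComplexConjugate

variable {J G H : CE ι → Matrix ι ι ℂ} {z : CE ι}

theorem nc_differentiableAt_conjTranspose (hJ : ∀ a b, DifferentiableAt ℝ (fun w => J w a b) z)
    (a b : ι) : DifferentiableAt ℝ (fun w => (J w)ᴴ a b) z :=
  (hJ b a).star

theorem nc_dzM_conj (hJ : ∀ a b, DifferentiableAt ℝ (fun w => J w a b) z)
    (hG : ∀ a b, DifferentiableAt ℝ (fun w => G w a b) z) {l : ι} (hJ0 : dzbM l J z = 0) :
    dzM l (fun w => (J w)ᴴ * G w * J w) z = (J z)ᴴ * (dzM l G z * J z + G z * dzM l J z) := by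
  have hJc := nc_differentiableAt_conjTranspose hJ
  rw [dzM_mul (A := fun w => (J w)ᴴ * G w) (differentiableAt_matMul hJc hG) hJ,
    dzM_mul hJc hG, dzM_conjTranspose, hJ0, Matrix.conjTranspose_zero, zero_mul, zero_add,
    mul_add, mul_assoc, mul_assoc]

theorem nc_dzM_dzM_conj (hJ : ∀ a b, ContDiffAt ℝ 2 (fun w => J w a b) z)
    (hG : ∀ a b, ContDiffAt ℝ 2 (fun w => G w a b) z)
    (hhol : ∀ᶠ w in 𝓝 z, ∀ l, dzbM l J w = 0) (l m : ι) :
    dzM m (dzM l (fun w => (J w)ᴴ * G w * J w)) z = (J z)ᴴ * (dzM m (dzM l G) z * J z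
      + dzM l G z * dzM m J z + dzM m G z * dzM l J z + G z * dzM m (dzM l J) z) := by
  have e1 : ∀ᶠ w in 𝓝 z, dzM l (fun w => (J w)ᴴ * G w * J w) w =
      (J w)ᴴ * (dzM l G w * J w + G w * dzM l J w) := by
    filter_upwards [cv_eventually_differentiableAt hJ, cv_eventually_differentiableAt hG, hhol]
      with w h1 h2 h3
    exact nc_dzM_conj h1 h2 (h3 l)
  have dJ := cv_differentiableAt hJ
  have dG := cv_differentiableAt hG
  have dJl := cv_differentiableAt_dzM hJ l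
  have dGl := cv_differentiableAt_dzM hG l
  have d1 := differentiableAt_matMul dGl dJ
  have d2 := differentiableAt_matMul dG dJl
  have d3 : ∀ a b, DifferentiableAt ℝ
      (fun w => (dzM l G w * J w + G w * dzM l J w) a b) z := fun a b => (d1 a b).add (d2 a b)
  rw [dzM_congr e1, dzM_mul (A := fun w => (J w)ᴴ)
      (B := fun w => dzM l G w * J w + G w * dzM l J w)
      (nc_differentiableAt_conjTranspose dJ) d3,
    dzM_conjTranspose, hhol.self_of_nhds m, Matrix.conjTranspose_zero, zero_mul, zero_add,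
    dzM_add (A := fun w => dzM l G w * J w) (A₂ := fun w => G w * dzM l J w) d1 d2,
    dzM_mul (A := fun w => dzM l G w) dGl dJ, dzM_mul (B := fun w => dzM l J w) dG dJl]
  congr 1
  abel

theorem nc_dzM_dzM_comp (τ : CE ι → CE ι) (hτ : ∀ᶠ w in 𝓝 z, DifferentiableAt ℂ τ w)
    (hH : ∀ a b, ContDiffAt ℝ 2 (fun y => H y a b) (τ z)) (l m : ι) :
    dzM m (dzM l (fun y => H (τ y))) z = ∑ c, (dz m (fun w => jac τ w c l) z • dzM c H (τ z)
      + jac τ z c l • ∑ e, jac τ z e m • dzM e (dzM c H) (τ z)) := by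
  have hτz : DifferentiableAt ℂ τ z := hτ.self_of_nhds
  have hev : ∀ᶠ w in 𝓝 z, ∀ a b, DifferentiableAt ℝ (fun y => H y a b) (τ w) :=
    hτz.continuousAt.eventually (cv_eventually_differentiableAt hH)
  have b1 : ∀ᶠ w in 𝓝 z, dzM l (fun y => H (τ y)) w = ∑ c, jac τ w c l • dzM c H (τ w) := by
    filter_upwards [hτ, hev] with w h1 h2
    exact dzM_comp_hol τ h1 h2 l
  rw [dzM_congr b1]
  ext a b
  have hA : ∀ c, DifferentiableAt ℝ (fun w => dzM c H (τ w) a b) z := fun c =>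
    (cv_differentiableAt_dzM hH c a b).comp z (hτz.restrictScalars ℝ)
  have hBc : ∀ c, DifferentiableAt ℂ (fun w => jac τ w c l) z := fun c =>
    differentiableAt_jac hτ c l
  have e : (fun w => (∑ c, jac τ w c l • dzM c H (τ w)) a b)
      = fun w => ∑ c, jac τ w c l * dzM c H (τ w) a b := by
    funext w
    rw [Matrix.sum_apply]
    rfl
  rw [dzM_apply, e, dz_sum Finset.univ (fun c w => jac τ w c l * dzM c H (τ w) a b)
    fun c _ => ((hBc c).restrictScalars ℝ).mul (hA c), Matrix.sum_apply]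
  refine Finset.sum_congr rfl fun c _ => ?_
  rw [dz_mul ((hBc c).restrictScalars ℝ) (hA c),
    dz_comp_hol τ (fun y => dzM c H y a b) hτz (cv_differentiableAt_dzM hH c a b),
    Matrix.add_apply, Matrix.smul_apply, Matrix.smul_apply, Matrix.sum_apply, smul_eq_mul,
    smul_eq_mul]
  congr 2
  refine Finset.sum_congr rfl fun e _ => ?_
  rw [Matrix.smul_apply, dzM_apply, smul_eq_mul, mul_comm]

end deriv

/-! ### the transformed matrix function under `w ↦ w - ½ c(w,w) - (1/6) d(w,w,w)` -/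

section step

open scoped Matrix ComplexConjugate

variable {H : CE ι → Matrix ι ι ℂ} (c : ι → ι → ι → ℂ) (d : ι → ι → ι → ι → ℂ)

/-- the transformed matrix function. -/
noncomputable def ncT (H : CE ι → Matrix ι ι ℂ) (c : ι → ι → ι → ℂ) (d : ι → ι → ι → ι → ℂ) :
    CE ι → Matrix ι ι ℂ :=
  fun w => (jac (ncMap 0 1 c d) w)ᴴ * H (ncMap 0 1 c d w) * jac (ncMap 0 1 c d) w

theorem nc_hol (w : CE ι) : DifferentiableAt ℂ (ncMap 0 1 c d) w :=
  (ncMap_contDiff 0 1 c d).differentiable (by simp) w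

theorem nc_jac_contDiffAt (z : CE ι) (a b : ι) :
    ContDiffAt ℝ 2 (fun w => jac (ncMap 0 1 c d) w a b) z :=
  (((ncMap_contDiff_jac 0 1 c d a b).restrict_scalars ℝ).of_le
    (WithTop.coe_le_coe.2 le_top)).contDiffAt

theorem nc_jac_dzbM (w : CE ι) (l : ι) : dzbM l (fun y => jac (ncMap 0 1 c d) y) w = 0 := by
  ext a b
  rw [dzbM_apply, dzb_of_differentiableAt
    ((ncMap_contDiff_jac 0 1 c d a b).differentiable (by simp) w)]
  rfl

theorem nc_comp_contDiffAt (hH : ∀ a b, ContDiffAt ℝ 2 (fun y => H y a b) 0) (a b : ι) :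
    ContDiffAt ℝ 2 (fun w => H (ncMap 0 1 c d w) a b) 0 := by
  have h1 : ContDiffAt ℝ 2 (ncMap 0 1 c d) 0 :=
    (((ncMap_contDiff 0 1 c d).restrict_scalars ℝ).of_le (WithTop.coe_le_coe.2 le_top)).contDiffAt
  have h2 : ContDiffAt ℝ 2 (fun y => H y a b) (ncMap 0 1 c d 0) := by
    rw [ncMap_zero]
    exact hH a b
  exact h2.comp 0 h1

theorem nc_sum_one_smul (X : ι → Matrix ι ι ℂ) (l : ι) :
    ∑ e, (1 : Matrix ι ι ℂ) e l • X e = X l := by
  simp [Matrix.one_apply, ite_smul]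

theorem ncT_zero : ncT H c d 0 = H 0 := by
  simp [ncT, ncMap_jac_zero, ncMap_zero]

theorem nc_dzM_comp_zero (hH : ∀ a b, ContDiffAt ℝ 2 (fun y => H y a b) 0) (l : ι) :
    dzM l (fun w => H (ncMap 0 1 c d w)) 0 = dzM l H 0 := by
  have hd : ∀ a b, DifferentiableAt ℝ (fun y => H y a b) (ncMap 0 1 c d 0) := by
    rw [ncMap_zero]
    exact cv_differentiableAt hH
  rw [dzM_comp_hol _ (nc_hol c d 0) hd, ncMap_jac_zero, ncMap_zero, nc_sum_one_smul]

theorem ncT_dzM (hH : ∀ a b, ContDiffAt ℝ 2 (fun y => H y a b) 0) (l : ι) :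
    dzM l (ncT H c d) 0 = dzM l H 0 + H 0 * dzM l (fun y => jac (ncMap 0 1 c d) y) 0 := by
  have h1 := nc_dzM_conj (J := fun y => jac (ncMap 0 1 c d) y)
    (G := fun w => H (ncMap 0 1 c d w)) (z := 0) (l := l)
    (cv_differentiableAt (nc_jac_contDiffAt c d 0))
    (cv_differentiableAt (nc_comp_contDiffAt c d hH)) (nc_jac_dzbM c d 0 l)
  rw [nc_dzM_comp_zero c d hH, ncMap_jac_zero, ncMap_zero, Matrix.conjTranspose_one, one_mul,
    mul_one] at h1
  exact h1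

theorem nc_dzM_jac_zero (l : ι) (b k : ι) :
    dzM l (fun y => jac (ncMap 0 1 c d) y) 0 b k = - (1 / 2 : ℂ) * (c b k l + c b l k) := by
  rw [dzM_apply, ncMap_dz_jac]
  simp

theorem nc_dzM_dzM_jac_zero (l m : ι) (b k : ι) :
    dzM m (dzM l (fun y => jac (ncMap 0 1 c d) y)) 0 b k =
      - (1 / 6 : ℂ) * ((d b k l m + d b l k m + d b l m k)
        + (d b k m l + d b m k l + d b m l k)) := by
  rw [dzM_apply]
  exact ncMap_dz_dz_jac 0 1 c d 0 b k l m

theorem ncT_dzM_dzM (hH : ∀ a b, ContDiffAt ℝ 2 (fun y => H y a b) 0) (l m : ι) :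
    dzM m (dzM l (ncT H (fun _ _ _ => 0) d)) 0 = dzM m (dzM l H) 0
      + H 0 * dzM m (dzM l (fun y => jac (ncMap 0 1 (fun _ _ _ => 0) d) y)) 0 := by
  have hz : ∀ l, dzM l (fun y => jac (ncMap 0 1 (fun _ _ _ => 0) d) y) 0 = 0 := by
    intro l
    ext b k
    rw [nc_dzM_jac_zero]
    simp
  have hH' : ∀ a b, ContDiffAt ℝ 2 (fun y => H y a b) (ncMap 0 1 (fun _ _ _ => 0) d 0) := by
    rw [ncMap_zero]
    exact hH
  have h1 := nc_dzM_dzM_conj (J := fun y => jac (ncMap 0 1 (fun _ _ _ => 0) d) y)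
    (G := fun w => H (ncMap 0 1 (fun _ _ _ => 0) d w)) (z := 0)
    (nc_jac_contDiffAt _ d 0) (nc_comp_contDiffAt _ d hH)
    (Filter.Eventually.of_forall fun w l => nc_jac_dzbM _ d w l) l m
  have h2 := nc_dzM_dzM_comp (H := H) (z := 0) (ncMap 0 1 (fun _ _ _ => 0) d)
    (Filter.Eventually.of_forall fun w => nc_hol _ d w) hH' l m
  have h3 : ∀ e, dz m (fun w => jac (ncMap 0 1 (fun _ _ _ => 0) d) w e l) 0 = 0 := by
    intro e
    have := congrFun (congrFun (hz m) e) l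
    rwa [dzM_apply] at this
  simp only [h3, zero_smul, zero_add, ncMap_jac_zero, ncMap_zero, nc_sum_one_smul] at h2
  rw [h2, hz, hz, ncMap_jac_zero, ncMap_zero, Matrix.conjTranspose_one, one_mul, mul_one,
    mul_zero, mul_zero, add_zero, add_zero] at h1
  exact h1

end step

/-! ### normalisation of a Kaehler metric with `h(0) = 1` -/

section normalise

open scoped Matrix ComplexConjugate

variable {h : HFam V ι} {Φ : CE ι → V} {U : Set (CE ι)}

theorem nc_isNormal2At_of (hh : IsHForm 𝓜 h) (hΦ : 𝓜.IsHol Φ U) (h0 : (0 : CE ι) ∈ U)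
    (h1 : h Φ 0 = 1) (h2 : ∀ l, dzM l (h Φ) 0 = 0) (h3 : ∀ l m, dzM m (dzM l (h Φ)) 0 = 0) :
    IsNormal2At h Φ := by
  have hherm := hh.eventually_isHermitian hΦ h0
  have hb : ∀ l, dzbM l (h Φ) 0 = 0 := fun l => by
    rw [← conjTranspose_dzM_of_isHermitian hherm, h2, Matrix.conjTranspose_zero]
  have hev : ∀ l, ∀ᶠ w in 𝓝 (0 : CE ι), dzbM l (h Φ) w = (dzM l (h Φ) w)ᴴ := fun l => by
    filter_upwards [hherm.eventually_nhds] with w hw
    exact (conjTranspose_dzM_of_isHermitian hw).symm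
  have hbb : ∀ l m, dzbM m (dzbM l (h Φ)) 0 = 0 := fun l m => by
    rw [dzbM_congr (hev l), dzbM_conjTranspose, h3, Matrix.conjTranspose_zero]
  refine ⟨⟨h1, fun j k l => ?_, fun j k l => ?_⟩, fun j k l m => ?_, fun j k l m => ?_⟩
  · have := congrFun (congrFun (h2 l) j) k
    rwa [dzM_apply] at this
  · have := congrFun (congrFun (hb l) j) k
    rwa [dzbM_apply] at this
  · have := congrFun (congrFun (h3 l m) j) k
    rw [dzM_apply] at this
    exact this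
  · have := congrFun (congrFun (hbb l m) j) k
    rw [dzbM_apply] at this
    exact this

theorem nc_step (hΦ : 𝓜.IsHol Φ U) (h0 : (0 : CE ι) ∈ U) (c : ι → ι → ι → ℂ)
    (d : ι → ι → ι → ι → ℂ) :
    ∃ U' : Set (CE ι), 𝓜.IsHol (Φ ∘ ncMap 0 1 c d) U' ∧ (0 : CE ι) ∈ U' ∧
      (Φ ∘ ncMap 0 1 c d) 0 = Φ 0 ∧
      jac (Function.invFunOn Φ U ∘ (Φ ∘ ncMap 0 1 c d)) 0 = 1 ∧
      ∀ A : HFam V ι, IsHForm 𝓜 A →
        ∀ᶠ w in 𝓝 (0 : CE ι), A (Φ ∘ ncMap 0 1 c d) w = ncT (A Φ) c d w := by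
  obtain ⟨U', hΦ', h0', hm⟩ := nc_change hΦ (ncMap_contDiff 0 1 c d)
    (by rw [ncMap_zero]; exact h0) (by rw [ncMap_jac_zero, Matrix.det_one]; exact one_ne_zero)
  refine ⟨U', hΦ', h0', by rw [Function.comp_apply, ncMap_zero], ?_, fun A hA => ?_⟩
  · rw [nc_jac_trans hΦ hΦ' hm h0', ncMap_jac_zero]
  · filter_upwards [(CMfd.isOpen_dom hΦ').mem_nhds h0'] with w hw
    exact hA.comp_eq hΦ hΦ' hm hw

theorem nc_normalise (hh : IsKahler 𝓜 h) (hΦ : 𝓜.IsHol Φ U) (h0 : (0 : CE ι) ∈ U)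
    (h1 : h Φ 0 = 1) :
    ∃ (Φ' : CE ι → V) (U' : Set (CE ι)), 𝓜.IsHol Φ' U' ∧ (0 : CE ι) ∈ U' ∧ Φ' 0 = Φ 0 ∧
      IsNormal2At h Φ' ∧ jac (Function.invFunOn Φ U ∘ Φ') 0 = 1 ∧
      ∀ A : HFam V ι, IsHForm 𝓜 A → A Φ' 0 = A Φ 0 := by
  have hF := hh.toIsMetric.toIsHForm
  -- step A
  obtain ⟨U₁, hΦ₁, h0₁, hx₁, hj₁, hA₁⟩ := nc_step hΦ h0
    (fun b k l => dz l (fun y => h Φ y b k) 0) (fun _ _ _ _ => 0)
  set Φ₁ := Φ ∘ ncMap 0 1 (fun b k l => dz l (fun y => h Φ y b k) 0) (fun _ _ _ _ => 0) with hΦ₁def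
  have a1 : h Φ₁ 0 = 1 := by
    rw [(hA₁ h hF).self_of_nhds, ncT_zero, h1]
  have a2 : ∀ l, dzM l (h Φ₁) 0 = 0 := by
    intro l
    rw [dzM_congr (hA₁ h hF), ncT_dzM _ _ (fun a b => hF.contDiffAt_two hΦ h0 a b), h1, one_mul]
    ext b k
    rw [Matrix.add_apply, nc_dzM_jac_zero, dzM_apply, hh.closed Φ U hΦ 0 h0 b l k]
    simp only [Matrix.zero_apply]
    ring
  -- step B
  obtain ⟨U₂, hΦ₂, h0₂, hx₂, hj₂, hA₂⟩ := nc_step hΦ₁ h0₁ (fun _ _ _ => 0)
    (fun b k l m => dz m (fun w => dz l (fun y => h Φ₁ y b k) w) 0)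
  set Φ₂ := Φ₁ ∘ ncMap 0 1 (fun _ _ _ => 0)
    (fun b k l m => dz m (fun w => dz l (fun y => h Φ₁ y b k) w) 0) with hΦ₂def
  have hC₁ : ∀ a b, ContDiffAt ℝ 2 (fun y => h Φ₁ y a b) 0 := fun a b =>
    hF.contDiffAt_two hΦ₁ h0₁ a b
  have b1 : h Φ₂ 0 = 1 := by
    rw [(hA₂ h hF).self_of_nhds, ncT_zero, a1]
  have b2 : ∀ l, dzM l (h Φ₂) 0 = 0 := by
    intro l
    rw [dzM_congr (hA₂ h hF), ncT_dzM _ _ hC₁, a2, a1, one_mul, zero_add]
    ext b k
    rw [nc_dzM_jac_zero]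
    simp
  have s1 : ∀ b k l m, dz m (fun w => dz l (fun y => h Φ₁ y b k) w) 0 =
      dz m (fun w => dz k (fun y => h Φ₁ y b l) w) 0 := by
    intro b k l m
    refine dz_congr ?_
    filter_upwards [hh.eventually_closed hΦ₁ h0₁] with w hw
    exact hw b k l
  have s2 : ∀ b k l m, dz m (fun w => dz l (fun y => h Φ₁ y b k) w) 0 =
      dz l (fun w => dz m (fun y => h Φ₁ y b k) w) 0 := fun b k l m => dz_dz_comm (hC₁ b k)
  have b3 : ∀ l m, dzM m (dzM l (h Φ₂)) 0 = 0 := by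
    intro l m
    have e1 : ∀ᶠ w in 𝓝 (0 : CE ι), dzM l (h Φ₂) w = dzM l (ncT (h Φ₁) (fun _ _ _ => 0)
        (fun b k l m => dz m (fun w => dz l (fun y => h Φ₁ y b k) w) 0)) w := by
      filter_upwards [(hA₂ h hF).eventually_nhds] with w hw
      exact dzM_congr hw
    rw [dzM_congr e1, ncT_dzM_dzM _ hC₁, a1, one_mul]
    ext b k
    rw [Matrix.add_apply, nc_dzM_dzM_jac_zero, dzM_apply]
    have t0 : (fun w => dzM l (h Φ₁) w b k) = fun w => dz l (fun y => h Φ₁ y b k) w := rfl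
    rw [t0, Matrix.zero_apply]
    have p1 := s1 b l k m
    have p2 : dz k (fun w => dz m (fun y => h Φ₁ y b l) w) 0 =
        dz m (fun w => dz l (fun y => h Φ₁ y b k) w) 0 := by rw [← s2 b l k m, s1 b l k m]
    have p3 := s2 b k l m
    have p4 : dz l (fun w => dz k (fun y => h Φ₁ y b m) w) 0 =
        dz m (fun w => dz l (fun y => h Φ₁ y b k) w) 0 := by rw [s1 b m k l, ← s2 b k l m]
    have p5 : dz k (fun w => dz l (fun y => h Φ₁ y b m) w) 0 =
        dz m (fun w => dz l (fun y => h Φ₁ y b k) w) 0 := by rw [s2 b m l k, p4]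
    rw [p1, p2, ← p3, p4, p5]
    ring
  refine ⟨Φ₂, U₂, hΦ₂, h0₂, hx₂.trans hx₁, nc_isNormal2At_of hF hΦ₂ h0₂ b1 b2 b3, ?_,
    fun A hA => ?_⟩
  · have hmem₁ : Φ₂ 0 ∈ Φ₁ '' U₁ := ⟨0, h0₁, hx₂.symm⟩
    have hmem : Φ₂ 0 ∈ Φ '' U := ⟨0, h0, (hx₂.trans hx₁).symm⟩
    rw [CMfd.jac_trans_comp hΦ₂ hΦ₁ hΦ h0₂ hmem₁ hmem, CMfd.trans_eq hΦ₂ hΦ₁ h0₁ hx₂, hj₁, hj₂,
      one_mul]
  · rw [(hA₂ A hA).self_of_nhds, ncT_zero, (hA₁ A hA).self_of_nhds, ncT_zero]

end normalise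

section linear

open scoped Matrix

theorem nc_linear_coords {Ψ : CE ι → V} {W : Set (CE ι)} (hΨ : 𝓜.IsHol Ψ W) {w : CE ι}
    (hw : w ∈ W) {T : Matrix ι ι ℂ} (hT : T.det ≠ 0) :
    ∃ (Φ : CE ι → V) (U : Set (CE ι)), 𝓜.IsHol Φ U ∧ (0 : CE ι) ∈ U ∧ Φ 0 = Ψ w ∧
      jac (Function.invFunOn Ψ W ∘ Φ) 0 = T ∧
      ∀ A : HFam V ι, IsHForm 𝓜 A → A Φ 0 = Tᴴ * A Ψ w * T := by
  obtain ⟨U, hΦ, h0, hm⟩ := nc_change hΨ
    (ncMap_contDiff w T (fun _ _ _ => 0) (fun _ _ _ _ => 0))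
    (by rw [ncMap_zero]; exact hw) (by rw [ncMap_jac_zero]; exact hT)
  refine ⟨_, U, hΦ, h0, ?_, ?_, fun A hA => ?_⟩
  · show Ψ (ncMap w T _ _ 0) = Ψ w
    rw [ncMap_zero]
  · rw [nc_jac_trans hΨ hΦ hm h0, ncMap_jac_zero]
  · rw [hA.comp_eq hΨ hΦ hm h0, ncMap_jac_zero, ncMap_zero]

/-- a frame, unitary for `H`, whose `i₀`-th column is a prescribed unit vector. -/
theorem nc_exists_frame {H : Matrix ι ι ℂ} (hH : H.PosDef) {v : ι → ℂ} (hv : qf H v = 1) (i₀ : ι) :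
    ∃ T : Matrix ι ι ℂ, Tᴴ * H * T = 1 ∧ T *ᵥ Pi.single i₀ 1 = v := by
  obtain ⟨R, hR, hRR⟩ := exists_sqrt_posDef hH
  have hRH : Rᴴ = R := hR.isHermitian.eq
  have hu : ∑ j, ‖(R *ᵥ v) j‖ ^ 2 = 1 := by
    rw [← qf_one, ← qf_conj, Matrix.mul_one, hRH, hRR, hv]
  set u : CE ι := WithLp.toLp 2 (R *ᵥ v) with hudef
  have hun : ‖u‖ = 1 := by
    rw [EuclideanSpace.norm_eq]
    have : ∑ j, ‖u j‖ ^ 2 = 1 := hu
    rw [this, Real.sqrt_one]
  have hon : Orthonormal ℂ (({i₀} : Set ι).domRestrict (fun _ : ι => u)) := by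
    constructor
    · intro i
      exact hun
    · intro i j hij
      exact absurd (Subtype.ext (i.2.trans j.2.symm)) hij
  obtain ⟨b, hb⟩ := Orthonormal.exists_orthonormalBasis_extension_of_card_eq
    (𝕜 := ℂ) (E := CE ι) (ι := ι) finrank_euclideanSpace (s := {i₀}) (v := fun _ => u) hon
  have hb0 : b i₀ = u := hb i₀ rfl
  set Q : Matrix ι ι ℂ := fun j k => b k j with hQ
  have hQQ : Qᴴ * Q = 1 := by
    ext j k
    rw [Matrix.mul_apply]
    have h1 := orthonormal_iff_ite.1 b.orthonormal j k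
    rw [EuclideanSpace.inner_eq_star_dotProduct] at h1
    rw [Matrix.one_apply, ← h1, dotProduct]
    refine Finset.sum_congr rfl fun m _ => ?_
    rw [Matrix.conjTranspose_apply, mul_comm]
    rfl
  refine ⟨R⁻¹ * Q, ?_, ?_⟩
  · rw [Matrix.conjTranspose_mul, Matrix.conjTranspose_nonsing_inv, hRH, ← hRR]
    calc Qᴴ * R⁻¹ * (R * R) * (R⁻¹ * Q) = Qᴴ * ((R⁻¹ * R) * (R * R⁻¹)) * Q := by
          simp only [Matrix.mul_assoc]
      _ = 1 := by
          rw [inv_mul_cancel_of_posDef hR, mul_inv_cancel_of_posDef hR, Matrix.one_mul,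
            Matrix.mul_one, hQQ]
  · rw [← Matrix.mulVec_mulVec, Matrix.mulVec_single_one]
    have h2 : Q.col i₀ = R *ᵥ v := by
      funext j
      show b i₀ j = _
      rw [hb0]
    rw [h2, Matrix.mulVec_mulVec, inv_mul_cancel_of_posDef hR, Matrix.one_mulVec]

end linear

/-- unitary coordinates for a Hermitian metric, diagonalising a second form. -/
theorem exists_unitary_coords {h A : HFam V ι} (hh : IsMetric 𝓜 h) (hA : IsHForm 𝓜 A) {x : V}
    (hx : x ∈ 𝓜.carrier) :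
    ∃ (Φ : CE ι → V) (U : Set (CE ι)) (lam : ι → ℝ), 𝓜.IsHol Φ U ∧ (0 : CE ι) ∈ U ∧ Φ 0 = x ∧
      h Φ 0 = 1 ∧ A Φ 0 = Matrix.diagonal (fun i => (lam i : ℂ)) := by
  obtain ⟨Ψ, W, hΨ, w, hw, rfl⟩ := 𝓜.cover x hx
  obtain ⟨T, d, hT, h1, h2⟩ := exists_simDiag (hh.posDef hΨ w hw) (hA.herm hΨ w hw)
  obtain ⟨Φ, U, hΦ, h0, hx0, -, hF⟩ := nc_linear_coords hΨ hw hT
  exact ⟨Φ, U, d, hΦ, h0, hx0, by rw [hF h hh.toIsHForm, h1], by rw [hF A hA, h2]⟩

/-- Kaehler normal coordinates. -/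
theorem exists_normal_coords {h : HFam V ι} (hh : IsKahler 𝓜 h) {x : V} (hx : x ∈ 𝓜.carrier) :
    ∃ (Φ : CE ι → V) (U : Set (CE ι)), 𝓜.IsHol Φ U ∧ (0 : CE ι) ∈ U ∧ Φ 0 = x ∧ IsNormal2At h Φ := by
  obtain ⟨Φ, U, -, hΦ, h0, hx0, h1, -⟩ :=
    exists_unitary_coords hh.toIsMetric hh.toIsMetric.toIsHForm hx
  obtain ⟨Φ', U', hΦ', h0', hx', hN, -, -⟩ := nc_normalise hh hΦ h0 h1
  exact ⟨Φ', U', hΦ', h0', hx'.trans hx0, hN⟩

/-- Kaehler normal coordinates diagonalising a second Hermitian form at the point. -/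
theorem exists_normal_coords_diag {h A : HFam V ι} (hh : IsKahler 𝓜 h) (hA : IsHForm 𝓜 A) {x : V}
    (hx : x ∈ 𝓜.carrier) :
    ∃ (Φ : CE ι → V) (U : Set (CE ι)) (lam : ι → ℝ), 𝓜.IsHol Φ U ∧ (0 : CE ι) ∈ U ∧ Φ 0 = x ∧
      IsNormal2At h Φ ∧ A Φ 0 = Matrix.diagonal (fun i => (lam i : ℂ)) := by
  obtain ⟨Φ, U, lam, hΦ, h0, hx0, h1, h2⟩ := exists_unitary_coords hh.toIsMetric hA hx
  obtain ⟨Φ', U', hΦ', h0', hx', hN, -, hF⟩ := nc_normalise hh hΦ h0 h1
  exact ⟨Φ', U', lam, hΦ', h0', hx'.trans hx0, hN, by rw [hF A hA, h2]⟩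

/-- normal coordinates whose first coordinate vector is a prescribed unit direction. -/
theorem exists_normal_coords_dir {h : HFam V ι} (hh : IsKahler 𝓜 h) {Ψ : CE ι → V} {W : Set (CE ι)}
    (hΨ : 𝓜.IsHol Ψ W) {w : CE ι} (hw : w ∈ W) {v : ι → ℂ} (hv : qf (h Ψ w) v = 1) (i₀ : ι) :
    ∃ (Φ : CE ι → V) (U : Set (CE ι)), 𝓜.IsHol Φ U ∧ (0 : CE ι) ∈ U ∧ Φ 0 = Ψ w ∧ IsNormal2At h Φ ∧
      (jac (Function.invFunOn Ψ W ∘ Φ) 0).mulVec (Pi.single i₀ 1) = v := by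
  obtain ⟨T, hT1, hTv⟩ := nc_exists_frame (hh.posDef hΨ w hw) hv i₀
  obtain ⟨Φ, U, hΦ, h0, hx0, hj, hF⟩ := nc_linear_coords hΨ hw (simDiag_det_ne_zero hT1)
  obtain ⟨Φ', U', hΦ', h0', hx', hN, hj', -⟩ :=
    nc_normalise hh hΦ h0 (by rw [hF h hh.toIsMetric.toIsHForm, hT1])
  refine ⟨Φ', U', hΦ', h0', hx'.trans hx0, hN, ?_⟩
  have hmem₁ : Φ' 0 ∈ Φ '' U := ⟨0, h0, hx'.symm⟩
  have hmem₂ : Φ' 0 ∈ Ψ '' W := ⟨w, hw, (hx'.trans hx0).symm⟩
  rw [CMfd.jac_trans_comp hΦ' hΦ hΨ h0' hmem₁ hmem₂, CMfd.trans_eq hΦ' hΦ h0 hx', hj, hj',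
    Matrix.mul_one, hTv]

section formulas

variable {h : HFam V ι} {Φ : CE ι → V} {U : Set (CE ι)}

theorem IsNormalAt.Rm_eq (hN : IsNormalAt h Φ) (j k l m : ι) :
    Rm h Φ 0 j k l m = - dzb m (fun w => dz l (fun y => h Φ y k j) w) 0 := by
  simp only [Rm, hN.dz0, mul_zero, zero_mul, Finset.sum_const_zero, add_zero]

theorem IsNormalAt.ricF_eq (hh : IsMetric 𝓜 h) (hΦ : 𝓜.IsHol Φ U) (h0 : (0 : CE ι) ∈ U)
    (hN : IsNormalAt h Φ) (j k : ι) :
    ricF h Φ 0 j k = - ∑ i, dzb j (fun w => dz k (fun y => h Φ y i i) w) 0 := by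
  have hH : ∀ a b, ContDiffAt ℝ 2 (fun w => h Φ w a b) 0 := fun a b =>
    hh.toIsHForm.contDiffAt_two hΦ h0 a b
  have hd : dzM k (h Φ) 0 = 0 := by
    ext a b
    rw [dzM_apply, hN.dz0]
    rfl
  show - levi (fun w => Real.log (h Φ w).det.re) 0 j k = _
  rw [levi_logDet hH (hh.toIsHForm.eventually_isHermitian hΦ h0) (hh.posDef hΦ 0 h0), hd, hN.one]
  simp only [inv_one, one_mul, mul_zero, Matrix.trace_zero, sub_zero]
  simp only [Matrix.trace, Matrix.diag_apply, dzbM_apply]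
  rfl

theorem IsNormalAt.tr_eq (hh : IsMetric 𝓜 h) {A : HFam V ι} (hA : IsHForm 𝓜 A) (hΦ : 𝓜.IsHol Φ U)
    (h0 : (0 : CE ι) ∈ U) (hN : IsNormalAt h Φ) : tr 𝓜 h A (Φ 0) = ∑ i, (A Φ 0 i i).re := by
  rw [Claimed.Agent.R316.tr_eq hh hA hΦ h0, hN.one, inv_one, one_mul, Matrix.trace, Complex.re_sum]
  rfl

theorem IsNormalAt.lap_eq (hh : IsMetric 𝓜 h) {u : V → ℝ} (hu : 𝓜.Smooth u) (hΦ : 𝓜.IsHol Φ U)
    (h0 : (0 : CE ι) ∈ U) (hN : IsNormalAt h Φ) :
    lap 𝓜 h u (Φ 0) = ∑ i, (levi (u ∘ Φ) 0 i i).re := by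
  rw [Claimed.Agent.R316.lap_eq hh hu hΦ h0, hN.one, inv_one, one_mul, Matrix.trace,
    Complex.re_sum]
  rfl

theorem IsNormalAt.gradSq_eq (hh : IsMetric 𝓜 h) (u : V → ℝ) (hΦ : 𝓜.IsHol Φ U)
    (h0 : (0 : CE ι) ∈ U) (hN : IsNormalAt h Φ) :
    gradSq 𝓜 h u (Φ 0) = ∑ i, ‖grad10 (u ∘ Φ) 0 i‖ ^ 2 := by
  rw [Claimed.Agent.R316.gradSq_eq hh u hΦ h0, hN.one, inv_one, Matrix.transpose_one, qf_one]

theorem nc_diag_ne_zero {M : Matrix ι ι ℂ} (hM : M.PosDef) {lam : ι → ℝ}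
    (hd : M = Matrix.diagonal (fun i => (lam i : ℂ))) (i : ι) : lam i ≠ 0 := by
  intro h
  have h1 := det_ne_zero_of_posDef hM
  rw [hd, Matrix.det_diagonal] at h1
  exact h1 (Finset.prod_eq_zero (Finset.mem_univ i) (by rw [h]; simp))

theorem nc_inv_diagonal {lam : ι → ℝ} (h0 : ∀ i, lam i ≠ 0) :
    (Matrix.diagonal (fun i => (lam i : ℂ)))⁻¹ =
      Matrix.diagonal (fun i => (((lam i)⁻¹ : ℝ) : ℂ)) := by
  apply Matrix.inv_eq_right_inv
  rw [Matrix.diagonal_mul_diagonal]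
  have : (fun i => ((lam i : ℝ) : ℂ) * (((lam i)⁻¹ : ℝ) : ℂ)) = fun _ => (1 : ℂ) := by
    funext i
    rw [← Complex.ofReal_mul, mul_inv_cancel₀ (h0 i), Complex.ofReal_one]
  rw [this, Matrix.diagonal_one]

/-- trace, Laplacian and gradient norm for a second metric that is diagonal at the point. -/
theorem tr_eq_of_diagonal {K A : HFam V ι} (hK : IsMetric 𝓜 K) (hA : IsHForm 𝓜 A) (hΦ : 𝓜.IsHol Φ U)
    {z : CE ι} (hz : z ∈ U) {lam : ι → ℝ} (hd : K Φ z = Matrix.diagonal (fun i => (lam i : ℂ))) :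
    tr 𝓜 K A (Φ z) = ∑ i, (lam i)⁻¹ * (A Φ z i i).re := by
  have hl := nc_diag_ne_zero (hK.posDef hΦ z hz) hd
  rw [Claimed.Agent.R316.tr_eq hK hA hΦ hz, hd, nc_inv_diagonal hl, Matrix.trace, Complex.re_sum]
  refine Finset.sum_congr rfl fun i _ => ?_
  rw [Matrix.diag_apply, Matrix.diagonal_mul, Complex.re_ofReal_mul]

theorem gradSq_eq_of_diagonal {K : HFam V ι} (hK : IsMetric 𝓜 K) (u : V → ℝ) (hΦ : 𝓜.IsHol Φ U)
    {z : CE ι} (hz : z ∈ U) {lam : ι → ℝ} (hd : K Φ z = Matrix.diagonal (fun i => (lam i : ℂ))) :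
    gradSq 𝓜 K u (Φ z) = ∑ i, ‖grad10 (u ∘ Φ) z i‖ ^ 2 / lam i := by
  have hl := nc_diag_ne_zero (hK.posDef hΦ z hz) hd
  rw [Claimed.Agent.R316.gradSq_eq hK u hΦ hz, hd, nc_inv_diagonal hl, Matrix.diagonal_transpose,
    qf_diagonal]
  refine Finset.sum_congr rfl fun i _ => ?_
  rw [div_eq_inv_mul]

end formulas

end Claimed.Agent.R316
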