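import Claimed.Agent.R316.Pack016
import Claimed.Agent.R316.Pack011
import Claimed.Agent.R316.Pack014_2

/-!
# Row 316, CM: local biholomorphisms ("immersed charts"), the standard manifold on an open subset of `ℂ^ι`, pull-back of forms

Owner of the statements: helper84.  PAPER FREE.  Consumers: S7-3 (static distortion), S7-2, S7-7a, S10.

* `IsLocBihol 𝓜 Φ B` (`Core/Psh.lean`): `B` open and every `z ∈ B` has an open neighbourhood `U ⊆ B` with `𝓜.IsHol Φ U`.  A raw family `A : HFam V ι` has a value `A Φ z` for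
  every FUNCTION `Φ`, so `A Φ` is a matrix function on all of `B`; all local statements about `A Φ` on a parametrisation hold on `B` (section 1).
* `stdMfd B hB : CMfd (CE ι) ι`: the open set `B ⊆ ℂ^ι` as a complex manifold (ambient space `CE ι`); its parametrisations are the injective holomorphic immersions `Θ : W → B` (`StdHol`).
* `pullF Φ A = fun Θ w => A (Φ ∘ Θ) w`: the pull-back `Φ^* A` to `stdMfd B`;  `pullF Φ A id = A Φ` by `rfl`.

Leaves: CM-STD-A (section 1), CM-STD-B (section 2: `StdHol.*`), CM-STD-C (section 3).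
All proofs are "pick the small `U` of `IsLocBihol` and quote the field / the CM lemma";  inverse function theorem: `scv_hasStrictFDerivAt`, `scv_isOpen_image` (`SCV/Basic.lean`), smoothness `hol_contDiffOn_real`.
-/

set_option autoImplicit false
set_option linter.unusedSectionVars false
open scoped ContDiff ComplexOrder Topology Matrix

namespace Claimed.Agent.R316

/-! ### 1. local biholomorphisms -/

section locbihol

variable {V : Type} [NormedAddCommGroup V] [NormedSpace ℝ V]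
variable {ι : Type} [Fintype ι]
variable {𝓜 : CMfd V ι} {Φ Θ : CE ι → V} {B W : Set (CE ι)}

theorem IsLocBihol.isOpen (h : IsLocBihol 𝓜 Φ B) : IsOpen B := h.1

theorem isLocBihol_of_isHol (h : 𝓜.IsHol Φ B) : IsLocBihol 𝓜 Φ B :=
  ⟨(𝓜.isParam h).isOpen, fun _ hz => ⟨B, subset_rfl, hz, h⟩⟩

theorem IsLocBihol.mono (h : IsLocBihol 𝓜 Φ B) {B' : Set (CE ι)} (hB' : IsOpen B') (hs : B' ⊆ B) :
    IsLocBihol 𝓜 Φ B' := by
  refine ⟨hB', fun z hz => ?_⟩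
  obtain ⟨U, _, hzU, hU⟩ := h.2 z (hs hz)
  exact ⟨U ∩ B', Set.inter_subset_right, ⟨hzU, hz⟩,
    𝓜.isHol_mono hU ((CMfd.isOpen_dom hU).inter hB') Set.inter_subset_left⟩

theorem IsLocBihol.mapsTo (h : IsLocBihol 𝓜 Φ B) : Set.MapsTo Φ B 𝓜.carrier := by
  intro z hz
  obtain ⟨U, _, hzU, hU⟩ := h.2 z hz
  exact CMfd.mem_carrier hU hzU

theorem IsLocBihol.contDiffOn (h : IsLocBihol 𝓜 Φ B) : ContDiffOn ℝ ∞ Φ B := by
  intro z hz
  obtain ⟨U, _, hzU, hU⟩ := h.2 z hz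
  exact ((𝓜.isParam hU).contDiffAt hzU).contDiffWithinAt

theorem IsLocBihol.continuousOn (h : IsLocBihol 𝓜 Φ B) : ContinuousOn Φ B := h.contDiffOn.continuousOn

theorem IsLocBihol.fderiv_injective (h : IsLocBihol 𝓜 Φ B) {z : CE ι} (hz : z ∈ B) :
    Function.Injective (fderiv ℝ Φ z) := by
  obtain ⟨U, _, hzU, hU⟩ := h.2 z hz
  exact (𝓜.isParam hU).immersion z hzU

/-- the part of `B` which is mapped into the image of a parametrisation `Θ : W → M`. -/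
theorem IsLocBihol.isOpen_overlap (h : IsLocBihol 𝓜 Φ B) (hΘ : 𝓜.IsHol Θ W) :
    IsOpen (B ∩ Φ ⁻¹' (Θ '' W)) := by
  obtain ⟨O, hO, hOeq⟩ := (𝓜.isParam hΘ).image
  have e : B ∩ Φ ⁻¹' (Θ '' W) = B ∩ Φ ⁻¹' O := by
    ext z
    constructor
    · rintro ⟨hz, hz'⟩
      have : Φ z ∈ 𝓜.carrier ∩ O := hOeq ▸ hz'
      exact ⟨hz, this.2⟩
    · rintro ⟨hz, hz'⟩
      refine ⟨hz, ?_⟩
      show Φ z ∈ Θ '' W
      rw [hOeq]
      exact ⟨h.mapsTo hz, hz'⟩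
  rw [e]
  exact h.continuousOn.isOpen_inter_preimage h.isOpen hO

/-- the transition `Θ⁻¹ ∘ Φ` is holomorphic. -/
theorem IsLocBihol.trans_differentiableOn (h : IsLocBihol 𝓜 Φ B) (hΘ : 𝓜.IsHol Θ W) :
    DifferentiableOn ℂ (Function.invFunOn Θ W ∘ Φ) (B ∩ Φ ⁻¹' (Θ '' W)) := by
  intro z hz
  obtain ⟨U, _, hzU, hU⟩ := h.2 z hz.1
  exact (CMfd.trans_differentiableAt hU hΘ ⟨hzU, hz.2⟩).differentiableWithinAt

theorem IsLocBihol.trans_fderiv_injective (h : IsLocBihol 𝓜 Φ B) (hΘ : 𝓜.IsHol Θ W) {z : CE ι}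
    (hz : z ∈ B ∩ Φ ⁻¹' (Θ '' W)) : Function.Injective (fderiv ℂ (Function.invFunOn Θ W ∘ Φ) z) := by
  classical
  obtain ⟨U, _, hzU, hU⟩ := h.2 z hz.1
  exact CMfd.fderiv_trans_injective hU hΘ ⟨hzU, hz.2⟩

/-- the preimage of a compact piece of a parametrisation in a compact subset of `B` is compact. -/
theorem IsLocBihol.isCompact_overlap (h : IsLocBihol 𝓜 Φ B) (hΘ : 𝓜.IsHol Θ W) {S S' : Set (CE ι)}
    (hS : IsCompact S) (hSB : S ⊆ B) (hS' : IsCompact S') (hS'W : S' ⊆ W) :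
    IsCompact (S ∩ Φ ⁻¹' (Θ '' S')) := by
  have h1 : IsClosed (Θ '' S') :=
    (hS'.image_of_continuousOn ((𝓜.isParam hΘ).continuousOn.mono hS'W)).isClosed
  have h2 : IsClosed (S ∩ Φ ⁻¹' (Θ '' S')) :=
    (h.continuousOn.mono hSB).preimage_isClosed_of_isClosed hS.isClosed h1
  exact hS.of_isClosed_subset h2 Set.inter_subset_left

variable [DecidableEq ι] {A h : HFam V ι}

theorem IsLocBihol.isHermitian (hΦ : IsLocBihol 𝓜 Φ B) (hA : IsHForm 𝓜 A) {z : CE ι} (hz : z ∈ B) :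
    (A Φ z).IsHermitian := by
  obtain ⟨U, _, hzU, hU⟩ := hΦ.2 z hz
  exact hA.herm hU z hzU

theorem IsLocBihol.contDiffOn_form (hΦ : IsLocBihol 𝓜 Φ B) (hA : IsHForm 𝓜 A) (j k : ι) :
    ContDiffOn ℝ ∞ (fun z => A Φ z j k) B := by
  intro z hz
  obtain ⟨U, _, hzU, hU⟩ := hΦ.2 z hz
  exact (hA.contDiffAt hU hzU j k).contDiffWithinAt

theorem IsLocBihol.posDef (hΦ : IsLocBihol 𝓜 Φ B) (hh : IsMetric 𝓜 h) {z : CE ι} (hz : z ∈ B) :
    (h Φ z).PosDef := by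
  obtain ⟨U, _, hzU, hU⟩ := hΦ.2 z hz
  exact hh.posDef hU z hzU

/-- transformation rule against a parametrisation. -/
theorem IsLocBihol.compat_trans (hΦ : IsLocBihol 𝓜 Φ B) (hA : IsHForm 𝓜 A) (hΘ : 𝓜.IsHol Θ W) {z : CE ι}
    (hz : z ∈ B ∩ Φ ⁻¹' (Θ '' W)) :
    A Φ z = (jac (Function.invFunOn Θ W ∘ Φ) z)ᴴ * A Θ ((Function.invFunOn Θ W ∘ Φ) z)
      * jac (Function.invFunOn Θ W ∘ Φ) z := by
  obtain ⟨U, _, hzU, hU⟩ := hΦ.2 z hz.1
  exact hA.compat_trans hU hΘ ⟨hzU, hz.2⟩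

/-- in terms of quadratic forms: `|v|²_{Φ^* A} = |dτ v|²_A`, `τ = Θ⁻¹ ∘ Φ`. -/
theorem IsLocBihol.qf_trans (hΦ : IsLocBihol 𝓜 Φ B) (hA : IsHForm 𝓜 A) (hΘ : 𝓜.IsHol Θ W) {z : CE ι}
    (hz : z ∈ B ∩ Φ ⁻¹' (Θ '' W)) (v : CE ι) :
    qf (A Φ z) v = qf (A Θ ((Function.invFunOn Θ W ∘ Φ) z)) (fderiv ℂ (Function.invFunOn Θ W ∘ Φ) z v) := by
  rw [hΦ.compat_trans hA hΘ hz, qf_conj]
  congr 1
  funext k
  exact jac_mulVec _ v k

theorem IsLocBihol.bisec_pos (hΦ : IsLocBihol 𝓜 Φ B) (hb : BisecPos 𝓜 h) {z : CE ι} (hz : z ∈ B)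
    {v w : ι → ℂ} (hv : v ≠ 0) (hw : w ≠ 0) : 0 < bisec h Φ z v w := by
  obtain ⟨U, _, hzU, hU⟩ := hΦ.2 z hz
  exact hb Φ U hU z hzU v w hv hw

theorem IsLocBihol.bisec_nonneg (hΦ : IsLocBihol 𝓜 Φ B) (hb : BisecNonneg 𝓜 h) {z : CE ι} (hz : z ∈ B)
    (v w : ι → ℂ) : 0 ≤ bisec h Φ z v w := by
  obtain ⟨U, _, hzU, hU⟩ := hΦ.2 z hz
  exact hb Φ U hU z hzU v w

/-- a form does not see the values of the parametrisation outside its domain. -/
theorem IsHForm.eq_of_eqOn (hA : IsHForm 𝓜 A) (hΘ : 𝓜.IsHol Θ W) (he : Set.EqOn Θ Φ W) {z : CE ι}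
    (hz : z ∈ W) : A Θ z = A Φ z := by
  have hΦ : 𝓜.IsHol Φ W := 𝓜.congr hΘ he
  have h1 := hA.compat hΘ hΦ z hz ⟨z, hz, (he hz).symm⟩
  have h2 : Function.invFunOn Φ W (Θ z) = z := by
    rw [he hz]
    exact (𝓜.isParam hΦ).leftInv hz
  have h3 : jac (Function.invFunOn Φ W ∘ Θ) z = 1 := by
    rw [← jac_id (z := z)]
    refine jac_congr ?_
    filter_upwards [(CMfd.isOpen_dom hΘ).mem_nhds hz] with w hw
    show Function.invFunOn Φ W (Θ w) = w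
    rw [he hw]
    exact (𝓜.isParam hΦ).leftInv hw
  rw [h1, h2, h3]
  simp

end locbihol

/-! ### 2. the standard manifold -/

section std

variable {ι : Type} [Fintype ι]
variable {B W W' : Set (CE ι)} {Θ Θ' : CE ι → CE ι}

/-- the holomorphic parametrisations of the open set `B ⊆ ℂ^ι`. -/
structure StdHol (B : Set (CE ι)) (Θ : CE ι → CE ι) (W : Set (CE ι)) : Prop where
  isOpen : IsOpen W
  hol : DifferentiableOn ℂ Θ W
  injOn : Set.InjOn Θ W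
  immersion : ∀ z ∈ W, Function.Injective (fderiv ℂ Θ z)
  mapsTo : Set.MapsTo Θ W B

theorem stdHol_id (hB : IsOpen B) : StdHol B id B :=
  ⟨hB, differentiableOn_id, Set.injOn_id _, fun z _ => by simpa using Function.injective_id,
    Set.mapsTo_id _⟩

theorem StdHol.isOpen_image (h : StdHol B Θ W) : IsOpen (Θ '' W) :=
  scv_isOpen_image h.isOpen h.hol h.immersion

theorem StdHol.differentiableAt (h : StdHol B Θ W) {z : CE ι} (hz : z ∈ W) : DifferentiableAt ℂ Θ z :=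
  (h.hol z hz).differentiableAt (h.isOpen.mem_nhds hz)

/-- the inverse of an injective holomorphic immersion is holomorphic. -/
theorem StdHol.differentiableOn_invFunOn (h : StdHol B Θ W) :
    DifferentiableOn ℂ (Function.invFunOn Θ W) (Θ '' W) := by
  rintro _ ⟨z, hz, rfl⟩
  have hs := scv_hasStrictFDerivAt h.isOpen h.hol hz
  let e : CE ι ≃L[ℂ] CE ι :=
    (LinearEquiv.ofInjectiveEndo (fderiv ℂ Θ z : CE ι →ₗ[ℂ] CE ι) (h.immersion z hz)).toContinuousLinearEquiv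
  have he : (e : CE ι →L[ℂ] CE ι) = fderiv ℂ Θ z := by
    refine ContinuousLinearMap.ext fun v => ?_
    rfl
  rw [← he] at hs
  have hg : ∀ᶠ x in 𝓝 z, Function.invFunOn Θ W (Θ x) = x := by
    filter_upwards [h.isOpen.mem_nhds hz] with x hx
    exact h.injOn.leftInvOn_invFunOn hx
  exact (hs.to_local_left_inverse hg).hasFDerivAt.differentiableAt.differentiableWithinAt

theorem StdHol.isParam (hB : IsOpen B) (h : StdHol B Θ W) : IsParam B Θ W := by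
  refine ⟨h.isOpen, hol_contDiffOn_real h.isOpen h.hol, fun z hz => ?_, h.injOn,
    ⟨Θ '' W, h.isOpen_image, ?_⟩, h.differentiableOn_invFunOn.continuousOn⟩
  · rw [(h.differentiableAt hz).fderiv_restrictScalars ℝ]
    exact h.immersion z hz
  · exact (Set.inter_eq_right.2 h.mapsTo.image_subset).symm

theorem StdHol.compat (h : StdHol B Θ W) (h' : StdHol B Θ' W') :
    DifferentiableOn ℂ (Function.invFunOn Θ' W' ∘ Θ) (W ∩ Θ ⁻¹' (Θ' '' W')) :=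
  h'.differentiableOn_invFunOn.comp (h.hol.mono Set.inter_subset_left) (fun _ hz => hz.2)

theorem StdHol.reparam (h : StdHol B Θ W) (τ : CE ι → CE ι) (U' : Set (CE ι)) (hU' : IsOpen U')
    (hτ : DifferentiableOn ℂ τ U') (hinj : Set.InjOn τ U') (him : ∀ z ∈ U', Function.Injective (fderiv ℂ τ z))
    (hm : Set.MapsTo τ U' W) : StdHol B (Θ ∘ τ) U' := by
  refine ⟨hU', h.hol.comp hτ hm, h.injOn.comp hinj hm, fun z hz => ?_, h.mapsTo.comp hm⟩
  rw [fderiv_comp z (h.differentiableAt (hm hz)) ((hτ z hz).differentiableAt (hU'.mem_nhds hz))]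
  exact (h.immersion _ (hm hz)).comp (him z hz)

theorem StdHol.congr (h : StdHol B Θ W) (he : Set.EqOn Θ Θ' W) : StdHol B Θ' W := by
  refine ⟨h.isOpen, h.hol.congr (fun z hz => (he hz).symm), h.injOn.congr he, fun z hz => ?_,
    h.mapsTo.congr he⟩
  have e : Θ' =ᶠ[𝓝 z] Θ := by
    filter_upwards [h.isOpen.mem_nhds hz] with w hw
    exact (he hw).symm
  rw [e.fderiv_eq]
  exact h.immersion z hz

/-- the open set `B ⊆ ℂ^ι` as a complex manifold. -/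
def stdMfd (B : Set (CE ι)) (hB : IsOpen B) : CMfd (CE ι) ι where
  carrier := B
  IsHol := StdHol B
  isParam := fun h => h.isParam hB
  cover := fun x hx => ⟨id, B, stdHol_id hB, x, hx, rfl⟩
  compat := fun h h' => h.compat h'
  reparam := fun h τ U' hU' hτ hinj him hm => h.reparam τ U' hU' hτ hinj him hm
  congr := fun h he => h.congr he

@[simp] theorem stdMfd_carrier (hB : IsOpen B) : (stdMfd B hB).carrier = B := rfl

theorem stdMfd_isHol_iff (hB : IsOpen B) : (stdMfd B hB).IsHol Θ W ↔ StdHol B Θ W := Iff.rfl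

theorem stdMfd_isHol_id (hB : IsOpen B) : (stdMfd B hB).IsHol id B := stdHol_id hB

end std

/-! ### 3. pull-back of forms by a local biholomorphism -/

section pull

variable {V : Type} [NormedAddCommGroup V] [NormedSpace ℝ V]
variable {ι : Type} [Fintype ι]
variable {𝓜 : CMfd V ι} {Φ : CE ι → V} {B W : Set (CE ι)} {Θ : CE ι → CE ι}

/-- the pull-back `Φ^* A`, a raw family on `stdMfd B`. -/
def pullF (Φ : CE ι → V) (A : HFam V ι) : HFam (CE ι) ι := fun Θ w => A (Φ ∘ Θ) w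

theorem pullF_id (Φ : CE ι → V) (A : HFam V ι) : pullF Φ A id = A Φ := rfl

theorem pullF_apply (Φ : CE ι → V) (A : HFam V ι) (Θ : CE ι → CE ι) (w : CE ι) :
    pullF Φ A Θ w = A (Φ ∘ Θ) w := rfl

/-- `Φ ∘ Θ` is locally a holomorphic parametrisation of `𝓜`. -/
theorem IsLocBihol.exists_isHol_comp (hΦ : IsLocBihol 𝓜 Φ B) (hΘ : StdHol B Θ W) {z : CE ι} (hz : z ∈ W) :
    ∃ W' : Set (CE ι), W' ⊆ W ∧ z ∈ W' ∧ 𝓜.IsHol (Φ ∘ Θ) W' := by
  obtain ⟨U, _, hzU, hU⟩ := hΦ.2 (Θ z) (hΘ.mapsTo hz)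
  have ho : IsOpen (W ∩ Θ ⁻¹' U) :=
    hΘ.hol.continuousOn.isOpen_inter_preimage hΘ.isOpen (CMfd.isOpen_dom hU)
  exact ⟨W ∩ Θ ⁻¹' U, Set.inter_subset_left, ⟨hz, hzU⟩,
    𝓜.reparam hU Θ _ ho (hΘ.hol.mono Set.inter_subset_left) (hΘ.injOn.mono Set.inter_subset_left)
      (fun w hw => hΘ.immersion w hw.1) (fun w hw => hw.2)⟩

theorem IsLocBihol.comp_stdHol (hΦ : IsLocBihol 𝓜 Φ B) (hΘ : StdHol B Θ W) : IsLocBihol 𝓜 (Φ ∘ Θ) W :=
  ⟨hΘ.isOpen, fun _ hz => hΦ.exists_isHol_comp hΘ hz⟩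

variable [DecidableEq ι] {A h : HFam V ι}

theorem isHForm_pullF (hΦ : IsLocBihol 𝓜 Φ B) (hA : IsHForm 𝓜 A) : IsHForm (stdMfd B hΦ.isOpen) (pullF Φ A) := by
  refine ⟨fun {Θ W} hΘ z hz => (hΦ.comp_stdHol hΘ).isHermitian hA hz,
    fun {Θ W} hΘ j k => (hΦ.comp_stdHol hΘ).contDiffOn_form hA j k,
    fun {Θ Θ' W W'} hΘ hΘ' z hz hz' => ?_⟩
  have hΘs : StdHol B Θ W := hΘ
  have hΘs' : StdHol B Θ' W' := hΘ'
  -- the point `w = Θ'⁻¹ (Θ z)`
  have hw : Function.invFunOn Θ' W' (Θ z) ∈ W' := Function.invFunOn_mem hz'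
  have hwe : Θ' (Function.invFunOn Θ' W' (Θ z)) = Θ z := Function.invFunOn_eq hz'
  obtain ⟨W1, _, hz1, hW1⟩ := hΦ.exists_isHol_comp hΘs hz
  obtain ⟨W1', hW1'sub, hw1, hW1'⟩ := hΦ.exists_isHol_comp hΘs' hw
  have hmem : (Φ ∘ Θ) z ∈ (Φ ∘ Θ') '' W1' := ⟨_, hw1, by simp [hwe]⟩
  have h1 := hA.compat hW1 hW1' z hz1 hmem
  -- the two transitions agree near `z`
  have hzO : z ∈ W ∩ Θ ⁻¹' (Θ' '' W') := ⟨hz, hz'⟩
  have hO : IsOpen (W ∩ Θ ⁻¹' (Θ' '' W')) :=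
    hΘs.hol.continuousOn.isOpen_inter_preimage hΘs.isOpen hΘs'.isOpen_image
  have hcont : ContinuousAt (Function.invFunOn Θ' W' ∘ Θ) z :=
    ((hΘs.compat hΘs' z hzO).differentiableAt (hO.mem_nhds hzO)).continuousAt
  have hev : Function.invFunOn (Φ ∘ Θ') W1' ∘ (Φ ∘ Θ) =ᶠ[𝓝 z] Function.invFunOn Θ' W' ∘ Θ := by
    filter_upwards [hO.mem_nhds hzO, hcont.preimage_mem_nhds ((CMfd.isOpen_dom hW1').mem_nhds hw1)]
      with y hy hy'
    have e1 : Θ' ((Function.invFunOn Θ' W' ∘ Θ) y) = Θ y := Function.invFunOn_eq hy.2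
    have e2 : (Φ ∘ Θ) y = (Φ ∘ Θ') ((Function.invFunOn Θ' W' ∘ Θ) y) := by
      simp only [Function.comp_apply] at e1 ⊢
      rw [e1]
    show Function.invFunOn (Φ ∘ Θ') W1' ((Φ ∘ Θ) y) = _
    rw [e2]
    exact (𝓜.isParam hW1').leftInv hy'
  have h2 : Function.invFunOn (Φ ∘ Θ') W1' ((Φ ∘ Θ) z) = Function.invFunOn Θ' W' (Θ z) := hev.eq_of_nhds
  rw [jac_congr hev, h2] at h1
  exact h1

theorem isMetric_pullF (hΦ : IsLocBihol 𝓜 Φ B) (hh : IsMetric 𝓜 h) : IsMetric (stdMfd B hΦ.isOpen) (pullF Φ h) :=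
  ⟨isHForm_pullF hΦ hh.toIsHForm, fun {_ _} hΘ _ hz => (hΦ.comp_stdHol hΘ).posDef hh hz⟩

theorem isKahler_pullF (hΦ : IsLocBihol 𝓜 Φ B) (hh : IsKahler 𝓜 h) : IsKahler (stdMfd B hΦ.isOpen) (pullF Φ h) := by
  refine ⟨isMetric_pullF hΦ hh.toIsMetric, fun Θ W hΘ z hz j k l => ?_⟩
  obtain ⟨W', _, hz', hW'⟩ := hΦ.exists_isHol_comp hΘ hz
  exact hh.closed (Φ ∘ Θ) W' hW' z hz' j k l

theorem bisec_pullF (Φ : CE ι → V) (h : HFam V ι) (Θ : CE ι → CE ι) (z : CE ι) (v w : ι → ℂ) :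
    bisec (pullF Φ h) Θ z v w = bisec h (Φ ∘ Θ) z v w := rfl

theorem bisecPos_pullF (hΦ : IsLocBihol 𝓜 Φ B) (hb : BisecPos 𝓜 h) : BisecPos (stdMfd B hΦ.isOpen) (pullF Φ h) :=
  fun _ _ hΘ _ hz _ _ hv hw => (hΦ.comp_stdHol hΘ).bisec_pos hb hz hv hw

theorem bisecNonneg_pullF (hΦ : IsLocBihol 𝓜 Φ B) (hb : BisecNonneg 𝓜 h) :
    BisecNonneg (stdMfd B hΦ.isOpen) (pullF Φ h) :=
  fun _ _ hΘ _ hz _ _ => (hΦ.comp_stdHol hΘ).bisec_nonneg hb hz _ _

end pull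

end Claimed.Agent.R316
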