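import Claimed.Agent.R316.CM.Std
import Claimed.Agent.R316.Pack022_2

/-!
# Row 316, CM: the distance of a metric on `stdMfd B`; local biholomorphisms are distance nonincreasing; uniform charts and uniform curvature on compact sets

Owner of the statements: helper84.  PAPER FREE.  Consumers: S7-3 (static distortion), S7-2, S7-7a.
Tools: `Base/Metric/Api.lean` (G0: `len_param`, `ambQ_param`, `exists_c1Curve`, `exists_isClosed_hcball`, `hdist_le_integral_param`), `Base/Geod/Api.lean` (`exists_ambBisec_lower`, `ambBisec_param`).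

Leaf CM-STD-D = this file.

* `hdist_le_hdist_pullF`: a `C¹` curve `γ` in `B` is mapped to the `C¹` curve `Φ ∘ γ` in `M`, and `ambQ 𝓜 h (Φ (γ t)) ((Φ ∘ γ)' t) = qf (h Φ (γ t)) (γ' t) = ambQ (stdMfd B) (pullF Φ h) (γ t) (γ' t)` (`ambQ_param` in the small `U` of `IsLocBihol`,
  resp. in the parametrisation `id`); so both lengths agree; `hdist` is an infimum over a NONEMPTY set (`exists_c1Curve`, `B` connected).
* `sqrt_mul_norm_le_hdist_std`: `len = ∫ √(qf (h id (γ t)) (γ' t)) ≥ √c ∫ |γ'| ≥ √c |γ 1 - γ 0|` (`len_param` with `id`).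
* `isCompact_hcball_std`: relatively closed in `B` (`exists_isClosed_hcball`) and contained in the compact `closedBall x (R/√c) ⊆ B`.
* `exists_uniform_charts`: `CMfd.exists_finite_cover`, `CMfd.isHol_translate`, `IsHForm.compat_trans` (Jacobian `1`), continuity of the entries on the compact `closedBall 0 (3 r_i / 2)`.
-/

set_option autoImplicit false
set_option linter.unusedSectionVars false
open scoped ContDiff ComplexOrder Topology Matrix

namespace Claimed.Agent.R316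

section aux

variable {ι : Type} [Fintype ι] [DecidableEq ι]

theorem stdm_qf_cI (c : ℝ) (v : CE ι) : qf (cI c : Matrix ι ι ℂ) v = c * ‖v‖ ^ 2 := by
  unfold cI
  rw [qf_smul, g0_qf_one]

theorem stdm_isHermitian_cI (c : ℝ) : (cI c : Matrix ι ι ℂ).IsHermitian := by
  unfold cI
  rw [Matrix.IsHermitian, Matrix.conjTranspose_smul, Matrix.conjTranspose_one]
  simp

theorem stdm_leM_cI_left {A : Matrix ι ι ℂ} (hA : A.IsHermitian) {c : ℝ} :
    leM (cI c) A ↔ ∀ v : CE ι, c * ‖v‖ ^ 2 ≤ qf A v := by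
  unfold leM
  rw [posSemidef_sub_iff_qf (stdm_isHermitian_cI c) hA]
  constructor
  · intro H v
    rw [← stdm_qf_cI]
    exact H v
  · intro H v
    have := H (WithLp.toLp 2 v)
    rw [← stdm_qf_cI] at this
    exact this

theorem stdm_leM_cI_right {A : Matrix ι ι ℂ} (hA : A.IsHermitian) {c : ℝ} :
    leM A (cI c) ↔ ∀ v : CE ι, qf A v ≤ c * ‖v‖ ^ 2 := by
  unfold leM
  rw [posSemidef_sub_iff_qf hA (stdm_isHermitian_cI c)]
  constructor
  · intro H v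
    rw [← stdm_qf_cI]
    exact H v
  · intro H v
    have := H (WithLp.toLp 2 v)
    rw [← stdm_qf_cI] at this
    exact this

end aux

section pull

variable {V : Type} [NormedAddCommGroup V] [NormedSpace ℝ V] [FiniteDimensional ℝ V]
variable {ι : Type} [Fintype ι] [DecidableEq ι]
variable {𝓜 : CMfd V ι} {h : HFam V ι} {Φ : CE ι → V} {B : Set (CE ι)}

/-- a local biholomorphism is distance nonincreasing for the pulled back metric. -/
theorem hdist_le_hdist_pullF (hΦ : IsLocBihol 𝓜 Φ B) (hh : IsMetric 𝓜 h) (hconn : IsConnected B) {x y : CE ι}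
    (hx : x ∈ B) (hy : y ∈ B) :
    hdist 𝓜 h (Φ x) (Φ y) ≤ hdist (stdMfd B hΦ.isOpen) (pullF Φ h) x y := by
  refine le_of_forall_gt_imp_ge_of_dense fun L hL => ?_
  obtain ⟨γ, hγ, h0, h1, hlen⟩ := g0_exists_curve_lt (𝓜 := stdMfd B hΦ.isOpen) (h := pullF Φ h)
    hconn hx hy hL
  have hγB : ∀ t, γ t ∈ B := hγ.2
  have hc : IsC1Curve 𝓜 (Φ ∘ γ) := by
    refine ⟨contDiff_iff_contDiffAt.2 fun t => ?_, fun t => hΦ.mapsTo (hγB t)⟩
    have h2 : ContDiffAt ℝ 1 Φ (γ t) :=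
      ((hΦ.contDiffOn (γ t) (hγB t)).contDiffAt (hΦ.isOpen.mem_nhds (hγB t))).of_le
        (by exact_mod_cast le_top)
    exact h2.comp t hγ.1.contDiffAt
  have hle := hdist_le_len hh hc (zero_le_one' ℝ)
  have heq : len 𝓜 h (Φ ∘ γ) 0 1 = len (stdMfd B hΦ.isOpen) (pullF Φ h) γ 0 1 := by
    unfold len
    refine intervalIntegral.integral_congr fun t _ => ?_
    obtain ⟨U, _, hzU, hU⟩ := hΦ.2 (γ t) (hγB t)
    have hd : deriv (Φ ∘ γ) t = fderiv ℝ Φ (γ t) (deriv γ t) :=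
      (((𝓜.isParam hU).differentiableAt hzU).hasFDerivAt.comp_hasDerivAt t
        (hγ.differentiableAt t).hasDerivAt).deriv
    have e1 : ambQ 𝓜 h ((Φ ∘ γ) t) (deriv (Φ ∘ γ) t) = qf (h Φ (γ t)) (deriv γ t : CE ι) := by
      rw [hd]
      exact ambQ_param hh.toIsHForm hU hzU _
    have e2 : ambQ (stdMfd B hΦ.isOpen) (pullF Φ h) (γ t) (deriv γ t)
        = qf (h Φ (γ t)) (deriv γ t : CE ι) := by
      have := ambQ_param (isHForm_pullF hΦ hh.toIsHForm) (stdMfd_isHol_id hΦ.isOpen) (hγB t)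
        (deriv γ t)
      rw [pullF_id] at this
      simpa using this
    simp only [e1, e2]
  simp only [Function.comp_apply, h0, h1] at hle
  linarith

/-- uniform positivity of the bisectional curvature over a compact set, in every immersed chart. -/
theorem exists_bisec_lower (hk : IsKahler 𝓜 h) (hb : BisecPos 𝓜 h) {K : Set V} (hK : IsCompact K)
    (hKM : K ⊆ 𝓜.carrier) : ∃ κ : ℝ, 0 < κ ∧ ∀ (Φ : CE ι → V) (B : Set (CE ι)), IsLocBihol 𝓜 Φ B →
      ∀ z ∈ B, Φ z ∈ K → ∀ a b : ι → ℂ, κ * (qf (h Φ z) a * qf (h Φ z) b) ≤ bisec h Φ z a b := by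
  obtain ⟨c, hc, H⟩ := exists_ambBisec_lower hk hb hK hKM
  refine ⟨c, hc, fun Φ B hΦ z hz hzK a b => ?_⟩
  obtain ⟨U, _, hzU, hU⟩ := hΦ.2 z hz
  have ht : ∀ v : CE ι, fderiv ℝ Φ z v ∈ 𝓜.tangent (Φ z) := fun v => by
    rw [CMfd.tangent_eq hU hzU]
    exact ⟨v, rfl⟩
  have h1 := H (Φ z) hzK _ (ht (WithLp.toLp 2 a)) _ (ht (WithLp.toLp 2 b))
  rw [ambQ_param hk.toIsHForm hU hzU, ambQ_param hk.toIsHForm hU hzU, ambBisec_param hk hU hzU] at h1
  exact h1

theorem stdm_jac_translate (z₀ w : CE ι) : jac (fun y : CE ι => y + z₀) w = 1 := by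
  ext a b
  show fderiv ℂ (fun y : CE ι => y + z₀) w (eb b) a = _
  rw [fderiv_add_const, fderiv_fun_id]
  simp [eb_apply, Matrix.one_apply]

/-- a form in a translated parametrisation. -/
theorem stdm_form_translate {A : HFam V ι} (hA : IsHForm 𝓜 A) {U : Set (CE ι)} (hΦ : 𝓜.IsHol Φ U)
    (z₀ : CE ι) {w : CE ι} (hw : w + z₀ ∈ U) : A (fun y => Φ (y + z₀)) w = A Φ (w + z₀) := by
  have hΘ := CMfd.isHol_translate hΦ z₀
  have h1 := hA.compat hΘ hΦ w hw ⟨w + z₀, hw, rfl⟩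
  have h2 : Function.invFunOn Φ U (Φ (w + z₀)) = w + z₀ := (𝓜.isParam hΦ).leftInv hw
  have h3 : jac (Function.invFunOn Φ U ∘ fun y => Φ (y + z₀)) w = 1 := by
    rw [← stdm_jac_translate z₀ w]
    refine jac_congr ?_
    filter_upwards [(CMfd.isOpen_dom hΘ).mem_nhds hw] with y hy
    exact (𝓜.isParam hΦ).leftInv hy
  rw [h1, h2, h3]
  simp

/-- centred holomorphic parametrisations of a fixed size with uniform metric bounds at all points of a compact set. -/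
theorem exists_uniform_charts (hh : IsMetric 𝓜 h) {K : Set V} (hK : IsCompact K) (hKM : K ⊆ 𝓜.carrier) :
    ∃ δ c₁ C₁ : ℝ, 0 < δ ∧ 0 < c₁ ∧ 0 < C₁ ∧ ∀ p ∈ K, ∃ Θ : CE ι → V, 𝓜.IsHol Θ (Metric.ball 0 δ) ∧ Θ 0 = p ∧
      ∀ w ∈ Metric.ball (0 : CE ι) δ, leM (cI c₁) (h Θ w) ∧ leM (h Θ w) (cI C₁) := by
  have key : ∃ δ c₁ C₁ : ℝ, 0 < δ ∧ 0 < c₁ ∧ 0 < C₁ ∧ ∀ p ∈ K, ∃ Θ : CE ι → V,
      𝓜.IsHol Θ (Metric.ball 0 δ) ∧ Θ 0 = p ∧ ∀ w ∈ Metric.ball (0 : CE ι) δ, ∀ v : CE ι,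
        c₁ * ‖v‖ ^ 2 ≤ qf (h Θ w) v ∧ qf (h Θ w) v ≤ C₁ * ‖v‖ ^ 2 := by
    refine hK.induction_on (p := fun S => ∃ δ c₁ C₁ : ℝ, 0 < δ ∧ 0 < c₁ ∧ 0 < C₁ ∧ ∀ p ∈ S,
      ∃ Θ : CE ι → V, 𝓜.IsHol Θ (Metric.ball 0 δ) ∧ Θ 0 = p ∧ ∀ w ∈ Metric.ball (0 : CE ι) δ,
        ∀ v : CE ι, c₁ * ‖v‖ ^ 2 ≤ qf (h Θ w) v ∧ qf (h Θ w) v ≤ C₁ * ‖v‖ ^ 2) ?_ ?_ ?_ ?_
    · exact ⟨1, 1, 1, one_pos, one_pos, one_pos, fun p hp => absurd hp (Set.notMem_empty p)⟩
    · rintro S T hST ⟨δ, c, C, hδ, hc, hC, H⟩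
      exact ⟨δ, c, C, hδ, hc, hC, fun p hp => H p (hST hp)⟩
    · rintro S T ⟨δ₁, c₁, C₁, hδ₁, hc₁, hC₁, H₁⟩ ⟨δ₂, c₂, C₂, hδ₂, hc₂, hC₂, H₂⟩
      refine ⟨min δ₁ δ₂, min c₁ c₂, max C₁ C₂, lt_min hδ₁ hδ₂, lt_min hc₁ hc₂,
        lt_max_of_lt_left hC₁, ?_⟩
      rintro p (hp | hp)
      · obtain ⟨Θ, hΘ, h0, H⟩ := H₁ p hp
        have hsub : Metric.ball (0 : CE ι) (min δ₁ δ₂) ⊆ Metric.ball 0 δ₁ :=
          Metric.ball_subset_ball (min_le_left _ _)
        refine ⟨Θ, 𝓜.isHol_mono hΘ Metric.isOpen_ball hsub, h0, fun w hw v => ?_⟩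
        have hn : 0 ≤ ‖v‖ ^ 2 := by positivity
        obtain ⟨a1, a2⟩ := H w (hsub hw) v
        exact ⟨(mul_le_mul_of_nonneg_right (min_le_left _ _) hn).trans a1,
          a2.trans (mul_le_mul_of_nonneg_right (le_max_left _ _) hn)⟩
      · obtain ⟨Θ, hΘ, h0, H⟩ := H₂ p hp
        have hsub : Metric.ball (0 : CE ι) (min δ₁ δ₂) ⊆ Metric.ball 0 δ₂ :=
          Metric.ball_subset_ball (min_le_right _ _)
        refine ⟨Θ, 𝓜.isHol_mono hΘ Metric.isOpen_ball hsub, h0, fun w hw v => ?_⟩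
        have hn : 0 ≤ ‖v‖ ^ 2 := by positivity
        obtain ⟨a1, a2⟩ := H w (hsub hw) v
        exact ⟨(mul_le_mul_of_nonneg_right (min_le_right _ _) hn).trans a1,
          a2.trans (mul_le_mul_of_nonneg_right (le_max_right _ _) hn)⟩
    · intro x hxK
      have hx := hKM hxK
      obtain ⟨Φ, r, hr, hΦ, hx0, -⟩ :=
        𝓜.exists_centred_in hx (Filter.univ_mem : (Set.univ : Set V) ∈ 𝓝 x)
      have h00 : (0 : CE ι) ∈ Metric.ball (0 : CE ι) (2 * r) := Metric.mem_ball_self (by linarith)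
      have hev := (𝓜.isParam hΦ).eventually_mem_image h00 (Metric.ball_mem_nhds 0 hr)
      rw [hx0] at hev
      have hcb : Metric.closedBall (0 : CE ι) (3 * r / 2) ⊆ Metric.ball 0 (2 * r) :=
        Metric.closedBall_subset_ball (by linarith)
      obtain ⟨c, C, hc, hC, H⟩ := g0_uniform_bounds hh hΦ (isCompact_closedBall 0 (3 * r / 2)) hcb
      refine ⟨_, nhdsWithin_mono x hKM hev, r / 2, c ^ 2, C ^ 2, by positivity, by positivity,
        by positivity, ?_⟩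
      rintro _ ⟨z₀, ⟨hz₀, -⟩, rfl⟩
      have hz₀' : ‖z₀‖ < r := by simpa using hz₀
      have hin : ∀ w ∈ Metric.ball (0 : CE ι) (r / 2), w + z₀ ∈ Metric.closedBall (0 : CE ι) (3 * r / 2) := by
        intro w hw
        have hw' : ‖w‖ < r / 2 := by simpa using hw
        rw [mem_closedBall_zero_iff]
        linarith [norm_add_le w z₀]
      refine ⟨fun y => Φ (y + z₀), 𝓜.isHol_mono (CMfd.isHol_translate hΦ z₀) Metric.isOpen_ball
        (fun w hw => hcb (hin w hw)), by simp, fun w hw v => ?_⟩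
      rw [stdm_form_translate hh.toIsHForm hΦ z₀ (hcb (hin w hw))]
      exact H _ (hin w hw) v
  obtain ⟨δ, c₁, C₁, hδ, hc₁, hC₁, H⟩ := key
  refine ⟨δ, c₁, C₁, hδ, hc₁, hC₁, fun p hp => ?_⟩
  obtain ⟨Θ, hΘ, h0, HΘ⟩ := H p hp
  refine ⟨Θ, hΘ, h0, fun w hw => ?_⟩
  exact ⟨(stdm_leM_cI_left (hh.herm hΘ w hw)).2 fun v => (HΘ w hw v).1,
    (stdm_leM_cI_right (hh.herm hΘ w hw)).2 fun v => (HΘ w hw v).2⟩

end pull

section std

variable {ι : Type} [Fintype ι] [DecidableEq ι]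
variable {B : Set (CE ι)} {h : HFam (CE ι) ι} {c : ℝ}

theorem sqrt_mul_norm_le_hdist_std (hB : IsOpen B) (hconn : IsConnected B) (hm : IsMetric (stdMfd B hB) h)
    (hc : 0 ≤ c) (hlow : ∀ z ∈ B, leM (cI c) (h id z)) {x y : CE ι} (hx : x ∈ B) (hy : y ∈ B) :
    Real.sqrt c * ‖x - y‖ ≤ hdist (stdMfd B hB) h x y := by
  refine le_of_forall_gt_imp_ge_of_dense fun L hL => ?_
  obtain ⟨γ, hγ, h0, h1, hlen⟩ := g0_exists_curve_lt (𝓜 := stdMfd B hB) (h := h) hconn hx hy hL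
  have hγB : ∀ t, γ t ∈ B := hγ.2
  have hcd : Continuous (deriv γ) := hγ.1.continuous_deriv le_rfl
  have hsp := hγ.continuous_speed hm.toIsHForm
  have hpt : ∀ t, Real.sqrt c * ‖deriv γ t‖ ≤ Real.sqrt (ambQ (stdMfd B hB) h (γ t) (deriv γ t)) := by
    intro t
    have e2 : ambQ (stdMfd B hB) h (γ t) (deriv γ t) = qf (h id (γ t)) (deriv γ t : CE ι) := by
      have := ambQ_param hm.toIsHForm (stdMfd_isHol_id hB) (hγB t) (deriv γ t)
      simpa using this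
    have h3 := (stdm_leM_cI_left (hm.herm (stdMfd_isHol_id hB) _ (hγB t))).1 (hlow _ (hγB t))
      (deriv γ t)
    rw [e2]
    calc Real.sqrt c * ‖deriv γ t‖ = Real.sqrt (c * ‖deriv γ t‖ ^ 2) := by
          rw [Real.sqrt_mul hc, Real.sqrt_sq (norm_nonneg _)]
      _ ≤ _ := Real.sqrt_le_sqrt h3
  have hint : γ 1 - γ 0 = ∫ t in (0:ℝ)..1, deriv γ t :=
    (intervalIntegral.integral_deriv_eq_sub (fun t _ => hγ.differentiableAt t)
      (hcd.intervalIntegrable _ _)).symm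
  have hn : ‖γ 1 - γ 0‖ ≤ ∫ t in (0:ℝ)..1, ‖deriv γ t‖ := by
    rw [hint]
    exact intervalIntegral.norm_integral_le_integral_norm zero_le_one
  have hmono : ∫ t in (0:ℝ)..1, Real.sqrt c * ‖deriv γ t‖ ≤ len (stdMfd B hB) h γ 0 1 :=
    intervalIntegral.integral_mono_on zero_le_one
      ((continuous_const.mul hcd.norm).intervalIntegrable _ _) (hsp.intervalIntegrable _ _)
      (fun t _ => hpt t)
  rw [intervalIntegral.integral_const_mul] at hmono
  have h4 : Real.sqrt c * ‖x - y‖ ≤ Real.sqrt c * ∫ t in (0:ℝ)..1, ‖deriv γ t‖ := by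
    refine mul_le_mul_of_nonneg_left ?_ (Real.sqrt_nonneg c)
    rw [norm_sub_rev, ← h0, ← h1]
    exact hn
  linarith

theorem hcball_std_subset (hB : IsOpen B) (hconn : IsConnected B) (hm : IsMetric (stdMfd B hB) h)
    (hc : 0 < c) (hlow : ∀ z ∈ B, leM (cI c) (h id z)) {x : CE ι} (hx : x ∈ B) (R : ℝ) :
    hcball (stdMfd B hB) h x R ⊆ Metric.closedBall x (R / Real.sqrt c) := by
  rintro y ⟨hy, hd⟩
  have h1 := sqrt_mul_norm_le_hdist_std hB hconn hm hc.le hlow hx hy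
  have hs : 0 < Real.sqrt c := Real.sqrt_pos.2 hc
  rw [Metric.mem_closedBall, dist_eq_norm, norm_sub_rev, le_div_iff₀ hs]
  linarith

theorem isCompact_hcball_std (hB : IsOpen B) (hconn : IsConnected B) (hm : IsMetric (stdMfd B hB) h)
    (hc : 0 < c) (hlow : ∀ z ∈ B, leM (cI c) (h id z)) {x : CE ι} (hx : x ∈ B) {R : ℝ}
    (hR : Metric.closedBall x (R / Real.sqrt c) ⊆ B) : IsCompact (hcball (stdMfd B hB) h x R) := by
  obtain ⟨F, hF, hFe⟩ := exists_isClosed_hcball (𝓜 := stdMfd B hB) hm hconn hx R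
  have hsub := hcball_std_subset hB hconn hm hc hlow hx R
  have e : hcball (stdMfd B hB) h x R = Metric.closedBall x (R / Real.sqrt c) ∩ F := by
    apply Set.Subset.antisymm
    · intro y hy
      refine ⟨hsub hy, ?_⟩
      rw [hFe] at hy
      exact hy.2
    · rintro y ⟨hy1, hy2⟩
      rw [hFe]
      exact ⟨hR hy1, hy2⟩
  rw [e]
  exact (isCompact_closedBall x _).inter_right hF

end std

end Claimed.Agent.R316
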